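import Vale.Agent.P225.Geom.Metric

/-!
# P225, geometry: the Christoffel symbols of the local model
-/

namespace Vale.Agent.P225.Geo

open scoped ContDiff Topology Matrix
open Filter

noncomputable section

variable {n : ℕ}

/-- A pair of smooth positive profiles. -/
structure Prof where
  A : ℝ → ℝ
  B : ℝ → ℝ
  hA : ContDiff ℝ ∞ A
  hB : ContDiff ℝ ∞ B
  posA : ∀ s, 0 < A s
  posB : ∀ s, 0 < B s

namespace Prof

variable (P : Prof)

/-- Coefficient of `x_i δ_jk + x_j δ_ik`. -/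
def c1 (s : ℝ) : ℝ := deriv P.B s / P.B s
/-- Coefficient of `δ_ij x_k`. -/
def c2 (s : ℝ) : ℝ := 1 - P.B s ^ 2 - P.B s * deriv P.B s
/-- Coefficient of `x_i x_j x_k`. -/
def c3 (s : ℝ) : ℝ :=
  -1 + P.B s ^ 2 + P.B s * deriv P.B s - 2 * deriv P.B s / P.B s
/-- Coefficient of `y_i y_j x_k`. -/
def c4 (s : ℝ) : ℝ :=
  P.B s ^ 2 - P.A s ^ 2 - P.A s * deriv P.A s + P.B s * deriv P.B s
    + 2 * P.A s ^ 2 / P.B s ^ 2 - 2
/-- Coefficient of `(x_i y_j + x_j y_i) y_k`. -/
def c5 (s : ℝ) : ℝ :=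
  deriv P.A s / P.A s - deriv P.B s / P.B s + 1 - P.A s ^ 2 / P.B s ^ 2
/-- Coefficient of `y_j J_ki + y_i J_kj`. -/
def c6 (s : ℝ) : ℝ := P.A s ^ 2 / P.B s ^ 2 - 1
/-- The coefficient of the trace. -/
def fT (n : ℕ) (s : ℝ) : ℝ := ((n : ℝ) - 2) * (deriv P.B s / P.B s) + deriv P.A s / P.A s

theorem neA (s : ℝ) : P.A s ≠ 0 := (P.posA s).ne'
theorem neB (s : ℝ) : P.B s ≠ 0 := (P.posB s).ne'

theorem dA : ContDiff ℝ ∞ (deriv P.A) := (contDiff_infty_iff_deriv.1 P.hA).2
theorem dB : ContDiff ℝ ∞ (deriv P.B) := (contDiff_infty_iff_deriv.1 P.hB).2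

theorem hasA (s : ℝ) : HasDerivAt P.A (deriv P.A s) s :=
  (P.hA.differentiable (by simp) s).hasDerivAt
theorem hasB (s : ℝ) : HasDerivAt P.B (deriv P.B s) s :=
  (P.hB.differentiable (by simp) s).hasDerivAt

theorem diff_c1 : Differentiable ℝ P.c1 :=
  (P.dB.differentiable (by simp)).div (P.hB.differentiable (by simp)) P.neB

theorem diff_c2 : Differentiable ℝ P.c2 := by
  have := P.hB.differentiable (by simp); have := P.dB.differentiable (by simp)
  unfold c2; fun_prop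

theorem diff_c3 : Differentiable ℝ P.c3 := by
  have := P.hB.differentiable (by simp); have := P.dB.differentiable (by simp)
  intro s; unfold c3; fun_prop (disch := exact P.neB _)

theorem diff_c4 : Differentiable ℝ P.c4 := by
  have := P.hB.differentiable (by simp); have := P.dB.differentiable (by simp)
  have := P.hA.differentiable (by simp); have := P.dA.differentiable (by simp)
  intro s; unfold c4; fun_prop (disch := exact pow_ne_zero _ (P.neB _))

theorem diff_c5 : Differentiable ℝ P.c5 := by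
  have := P.hB.differentiable (by simp); have := P.dB.differentiable (by simp)
  have := P.hA.differentiable (by simp); have := P.dA.differentiable (by simp)
  intro s; unfold c5
  fun_prop (disch := first | exact P.neA _ | exact P.neB _ | exact pow_ne_zero _ (P.neB _))

theorem diff_c6 : Differentiable ℝ P.c6 := by
  have := P.hB.differentiable (by simp); have := P.hA.differentiable (by simp)
  intro s; unfold c6; fun_prop (disch := exact pow_ne_zero _ (P.neB _))

theorem diff_fT (n : ℕ) : Differentiable ℝ (P.fT n) :=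
  ((differentiable_const _).mul P.diff_c1).add
    ((P.dA.differentiable (by simp)).div (P.hA.differentiable (by simp)) P.neA)

end Prof

/-- The Christoffel symbols of the local model. -/
def chr (F : Frame n) (P : Prof) (x : Euc n) (k i j : Fin n) : ℝ :=
  rq 1 P.c1 x * (x i * kd j k + x j * kd i k) + rq 1 P.c2 x * (kd i j * x k) +
    rq 2 P.c3 x * (x i * x j * x k) + rq 2 P.c4 x * (F.y x i * F.y x j * x k) +
    rq 2 P.c5 x * ((x i * F.y x j + x j * F.y x i) * F.y x k) +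
    rq 1 P.c6 x * (F.y x j * F.J k i + F.y x i * F.J k j)

theorem kd_comm (i j : Fin n) : kd i j = kd j i := by simp [kd, eq_comm]

variable (F : Frame n) (P : Prof)

theorem pd_gM {x : Euc n} (hx : x ≠ 0) (i j l : Fin n) :
    pd (fun y => gM F P.A P.B y j l) i x =
      (‖x‖ ^ 2)⁻¹ * (2 * P.B (Real.log ‖x‖) * deriv P.B (Real.log ‖x‖)) * x i * kd j l +
      ((‖x‖ ^ 2)⁻¹ ^ 2 * (-(2 * P.B (Real.log ‖x‖) * deriv P.B (Real.log ‖x‖))
          - 2 * (1 - P.B (Real.log ‖x‖) ^ 2)) * x i * (x j * x l) +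
        rq 1 (fun s => 1 - P.B s ^ 2) x * (kd j i * x l + x j * kd l i)) +
      ((‖x‖ ^ 2)⁻¹ ^ 2 * (2 * P.A (Real.log ‖x‖) * deriv P.A (Real.log ‖x‖)
          - 2 * P.B (Real.log ‖x‖) * deriv P.B (Real.log ‖x‖)
          - 2 * (P.A (Real.log ‖x‖) ^ 2 - P.B (Real.log ‖x‖) ^ 2)) * x i *
            (F.y x j * F.y x l) +
        rq 1 (fun s => P.A s ^ 2 - P.B s ^ 2) x * (F.J j i * F.y x l + F.y x j * F.J l i)) := by
  have hB2 := (P.hasB (Real.log ‖x‖)).pow 2
  have hA2 := (P.hasA (Real.log ‖x‖)).pow 2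
  have h := (((HasPd.rq hx 0 hB2).mul (HasPd.const (kd j l))).add
    ((HasPd.rq hx 1 (hB2.const_sub 1)).mul ((HasPd.coord j).mul (HasPd.coord l)))).add
    ((HasPd.rq hx 1 (hA2.sub hB2)).mul ((HasPd.jvec F.J j).mul (HasPd.jvec F.J l)))
  refine (h.2 i).trans ?_
  simp only [rq_eq, Frame.y, Pi.sub_apply, Pi.pow_apply]
  push_cast
  ring

theorem dot_kd (u : Fin n → ℝ) (i : Fin n) : dot u (fun l => kd i l) = u i := by
  simp [dot, dotProduct, kd]

/-- The inverse metric applied to a vector. -/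
theorem sum_gI (x : Euc n) (w : Fin n → ℝ) (k : Fin n) :
    ∑ l, gI F P.A P.B x k l * w l = rq 0 (fun s => 1 / P.B s ^ 2) x * w k +
      rq 1 (fun s => 1 - 1 / P.B s ^ 2) x * dot (x : Fin n → ℝ) w * x k +
      rq 1 (fun s => 1 / P.A s ^ 2 - 1 / P.B s ^ 2) x * dot (F.y x) w * F.y x k :=
  sum_shape _ _ w _ _ _ k

theorem christoffel_gM {x : Euc n} (hx : x ≠ 0) (k i j : Fin n) :
    christoffel (gM F P.A P.B) x k i j = chr F P x k i j := by
  have hn : ‖x‖ ≠ 0 := norm_ne_zero_iff.2 hx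
  set s := Real.log ‖x‖ with hs
  have hA := P.neA s
  have hB := P.neB s
  set e := (‖x‖ ^ 2)⁻¹ with he
  set P1 := 2 * P.B s * deriv P.B s
  set Q := 1 - P.B s ^ 2
  set S := P.A s ^ 2 - P.B s ^ 2
  set S2 := 2 * P.A s * deriv P.A s - 2 * P.B s * deriv P.B s - 2 * S
  set Q2 := -P1 - 2 * Q
  let L : Fin n → ℝ :=
    (e * P1 * x i) • (fun l => kd j l) + (e * P1 * x j) • (fun l => kd i l) +
    ((2 * e * Q - e * P1) * kd i j + e ^ 2 * Q2 * (x i * x j) - e ^ 2 * S2 * (F.y x i * F.y x j)) •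
      (x : Fin n → ℝ) +
    (e ^ 2 * S2 * (x i * F.y x j + x j * F.y x i)) • F.y x +
    (2 * e * S * F.y x j) • (fun l => F.J l i) + (2 * e * S * F.y x i) • (fun l => F.J l j)
  have hL : ∀ l, pd (fun y => gM F P.A P.B y j l) i x + pd (fun y => gM F P.A P.B y i l) j x
      - pd (fun y => gM F P.A P.B y i j) l x = L l := fun l => by
    rw [pd_gM F P hx, pd_gM F P hx, pd_gM F P hx]
    simp only [L, Pi.add_apply, Pi.smul_apply, smul_eq_mul, rq_eq, pow_one, P1, Q, S, S2, Q2, e, s]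
    rw [kd_comm j i, kd_comm l i, kd_comm l j, F.anti j i, F.anti l j, F.anti l i]
    ring
  have hx1 : dot (x : Fin n → ℝ) (fun l => F.J l i) = -F.y x i := F.xJ x i
  have hx2 : dot (x : Fin n → ℝ) (fun l => F.J l j) = -F.y x j := F.xJ x j
  have hy1 : dot (F.y x) (fun l => F.J l i) = x i := F.yJ x i
  have hy2 : dot (F.y x) (fun l => F.J l j) = x j := F.yJ x j
  have hyx : dot (F.y x) (x : Fin n → ℝ) = 0 := by
    rw [dot, dotProduct_comm]; exact F.xy x
  rw [christoffel, inv_gM hx hA hB]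
  simp only [hL]
  rw [sum_gI]
  simp only [L, dot, dotProduct_add, dotProduct_smul, smul_eq_mul, Pi.add_apply, Pi.smul_apply]
  simp only [dot] at hx1 hx2 hy1 hy2 hyx
  have dk : ∀ (u : Fin n → ℝ) m, u ⬝ᵥ (fun l => kd m l) = u m := dot_kd
  rw [show (x : Fin n → ℝ) ⬝ᵥ (x : Fin n → ℝ) = ‖x‖ ^ 2 from F.xx x,
    show F.y x ⬝ᵥ F.y x = ‖x‖ ^ 2 from F.yy x,
    show (x : Fin n → ℝ) ⬝ᵥ F.y x = 0 from F.xy x, hx1, hx2, hy1, hy2, hyx,
    dk, dk, dk, dk]
  simp only [chr, rq_eq, pow_zero, one_mul, pow_one, Prof.c1, Prof.c2, Prof.c3, Prof.c4, Prof.c5,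
    Prof.c6, P1, Q, S, S2, Q2, e, s]
  have hA' := P.neA (Real.log ‖x‖)
  have hB' := P.neB (Real.log ‖x‖)
  generalize P.A (Real.log ‖x‖) = a at hA' ⊢
  generalize P.B (Real.log ‖x‖) = b at hB' ⊢
  field_simp
  ring

theorem christoffel_eventuallyEq {x : Euc n} (hx : x ≠ 0) (k i j : Fin n) :
    (fun y => christoffel (gM F P.A P.B) y k i j) =ᶠ[𝓝 x] fun y => chr F P y k i j := by
  filter_upwards [isOpen_ne.mem_nhds hx] with y hy using christoffel_gM F P hy k i j

theorem chr_symm (x : Euc n) (k i j : Fin n) : chr F P x k i j = chr F P x k j i := by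
  simp only [chr, kd_comm i j]; ring

theorem chr_trace {x : Euc n} (hx : x ≠ 0) (i : Fin n) :
    ∑ k, chr F P x k i k = rq 1 (P.fT n) x * x i := by
  have hn : ‖x‖ ≠ 0 := norm_ne_zero_iff.2 hx
  have h1 : ∑ k : Fin n, kd k k = (n : ℝ) := by simp [kd]
  have h2 : ∑ k, x k * kd i k = x i := by simp [kd]
  have h3 : ∑ k, kd i k * x k = x i := by simp [kd]
  have h4 : ∑ k, x k * x k = ‖x‖ ^ 2 := F.xx x
  have h5 : ∑ k, F.y x k * x k = 0 := by
    simpa [dot, dotProduct, mul_comm] using F.xy x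
  have h6 : ∑ k, F.y x k * F.y x k = ‖x‖ ^ 2 := F.yy x
  have h7 : ∑ k, F.y x k * F.J k i = x i := F.yJ x i
  have key : ∀ k, chr F P x k i k =
      rq 1 P.c1 x * x i * kd k k + rq 1 P.c1 x * (x k * kd i k) + rq 1 P.c2 x * (kd i k * x k) +
      rq 2 P.c3 x * x i * (x k * x k) + rq 2 P.c4 x * F.y x i * (F.y x k * x k) +
      rq 2 P.c5 x * x i * (F.y x k * F.y x k) + rq 2 P.c5 x * F.y x i * (F.y x k * x k) +
      rq 1 P.c6 x * (F.y x k * F.J k i) + rq 1 P.c6 x * F.y x i * F.J k k := fun k => by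
    simp only [chr]; ring
  simp only [key, Finset.sum_add_distrib, ← Finset.mul_sum, h1, h2, h3, h4, h5, h6, h7, F.tr]
  have hA := P.neA (Real.log ‖x‖)
  have hB := P.neB (Real.log ‖x‖)
  simp only [rq_eq, Prof.c1, Prof.c2, Prof.c3, Prof.c5, Prof.c6, Prof.fT, pow_one]
  field_simp
  ring

end

end Vale.Agent.P225.Geo
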