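import Vale.Agent.P225.Geom.Metric

/-!
# P225, geometry: comparison of the distance with the Euclidean one
-/

namespace Vale.Agent.P225.Geo

open scoped ContDiff Topology
open Filter intervalIntegral

noncomputable section

variable {n : ℕ} {J : ℝ → Matrix (Fin n) (Fin n) ℝ} {A B : ℝ → ℝ} {c : ℝ}

theorem dot_self_norm (w : Euc n) : dot (w : Fin n → ℝ) w = ‖w‖ ^ 2 := by
  rw [EuclideanSpace.norm_sq_eq]
  simp [dot, dotProduct, sq]

theorem speed_bounds (h : IsProfile J A B c) (x w : Euc n) :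
    c * ‖w‖ ≤ √(∑ i, ∑ j, gOf J A B x i j * w i * w j) ∧
      √(∑ i, ∑ j, gOf J A B x i j * w i * w j) ≤ ‖w‖ / c := by
  have hc : 0 < c := h.2.2.2.2.2.1
  have e : ∑ i, ∑ j, gOf J A B x i j * w i * w j = ∑ i, ∑ j, w i * w j * gOf J A B x i j :=
    Finset.sum_congr rfl fun i _ => Finset.sum_congr rfl fun j _ => by ring
  obtain ⟨h1, h2⟩ := gOf_bounds h x (w : Fin n → ℝ)
  rw [dot_self_norm] at h1 h2
  rw [e]
  constructor
  · rw [show c * ‖w‖ = √((c * ‖w‖) ^ 2) from (Real.sqrt_sq (by positivity)).symm, mul_pow]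
    exact Real.sqrt_le_sqrt h1
  · rw [show ‖w‖ / c = √((‖w‖ / c) ^ 2) from (Real.sqrt_sq (by positivity)).symm, div_pow]
    exact Real.sqrt_le_sqrt h2

theorem continuous_speed (h : IsProfile J A B c) {γ : ℝ → Euc n} (hγ : ContDiff ℝ 1 γ) :
    Continuous fun t => √(∑ i, ∑ j, gOf J A B (γ t) i j * deriv γ t i * deriv γ t j) := by
  refine (continuous_finsetSum _ fun i _ => continuous_finsetSum _ fun j _ => ?_).sqrt
  exact (((gOf_contDiff h i j).continuous.comp hγ.continuous).mul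
    ((contDiff_coord i).continuous.comp (hγ.continuous_deriv le_rfl))).mul
    ((contDiff_coord j).continuous.comp (hγ.continuous_deriv le_rfl))

theorem curveLength_ge (h : IsProfile J A B c) {γ : ℝ → Euc n} (hγ : ContDiff ℝ 1 γ) :
    c * ‖γ 1 - γ 0‖ ≤ curveLength (gOf J A B) γ := by
  have hd : Continuous (deriv γ) := hγ.continuous_deriv le_rfl
  have he : ∫ t in (0 : ℝ)..1, deriv γ t = γ 1 - γ 0 :=
    integral_deriv_eq_sub (fun t _ => (hγ.differentiable one_ne_zero) t) (hd.intervalIntegrable _ _)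
  have hc : 0 < c := h.2.2.2.2.2.1
  calc c * ‖γ 1 - γ 0‖ ≤ c * ∫ t in (0 : ℝ)..1, ‖deriv γ t‖ := by
        rw [← he]; gcongr; exact norm_integral_le_integral_norm zero_le_one
    _ = ∫ t in (0 : ℝ)..1, c * ‖deriv γ t‖ := by rw [integral_const_mul]
    _ ≤ _ := integral_mono_on zero_le_one ((continuous_const.mul hd.norm).intervalIntegrable _ _)
        ((continuous_speed h hγ).intervalIntegrable _ _) fun t _ => (speed_bounds h _ _).1

theorem segment_curve (h : IsProfile J A B c) (x y : Euc n) :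
    ∃ γ : ℝ → Euc n, ContDiff ℝ 1 γ ∧ γ 0 = x ∧ γ 1 = y ∧
      curveLength (gOf J A B) γ ≤ ‖y - x‖ / c := by
  have hγ : ContDiff ℝ 1 fun t : ℝ => x + t • (y - x) :=
    contDiff_const.add (contDiff_id.smul contDiff_const)
  have hd : ∀ t : ℝ, deriv (fun t : ℝ => x + t • (y - x)) t = y - x := fun t => by
    simpa using (((hasDerivAt_id t).smul_const (y - x)).const_add x).deriv
  refine ⟨_, hγ, by simp, by simp, ?_⟩
  calc curveLength (gOf J A B) (fun t : ℝ => x + t • (y - x))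
      ≤ ∫ _ in (0 : ℝ)..1, ‖y - x‖ / c := by
        refine integral_mono_on zero_le_one ((continuous_speed h hγ).intervalIntegrable _ _)
          intervalIntegrable_const fun t _ => ?_
        simp only [hd]
        exact (speed_bounds h _ _).2
    _ = _ := by simp

theorem dist_ge (h : IsProfile J A B c) (x y : Euc n) :
    c * ‖y - x‖ ≤ dist' (gOf J A B) x y := by
  obtain ⟨γ, h1, h2, h3, _⟩ := segment_curve h x y
  refine le_csInf ⟨_, γ, h1, h2, h3, rfl⟩ ?_
  rintro L ⟨γ', g1, g2, g3, rfl⟩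
  have := curveLength_ge h g1
  rwa [g2, g3] at this

theorem dist_le (h : IsProfile J A B c) (x y : Euc n) :
    dist' (gOf J A B) x y ≤ ‖y - x‖ / c := by
  obtain ⟨γ, h1, h2, h3, h4⟩ := segment_curve h x y
  refine le_trans (csInf_le ⟨c * ‖y - x‖, ?_⟩ ⟨γ, h1, h2, h3, rfl⟩) h4
  rintro L ⟨γ', g1, g2, g3, rfl⟩
  have := curveLength_ge h g1
  rwa [g2, g3] at this

theorem gOf_complete (h : IsProfile J A B c) : IsComplete' (gOf J A B) := by
  have hc : 0 < c := h.2.2.2.2.2.1
  intro a ha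
  have hcs : CauchySeq a := Metric.cauchySeq_iff.2 fun ε hε => by
    obtain ⟨N, hN⟩ := ha (c * ε) (mul_pos hc hε)
    refine ⟨N, fun i hi j hj => ?_⟩
    have := (dist_ge h (a i) (a j)).trans_lt (hN i hi j hj)
    rw [dist_comm, dist_eq_norm]
    exact lt_of_mul_lt_mul_left this hc.le
  obtain ⟨x, hx⟩ := cauchySeq_tendsto_of_complete hcs
  refine ⟨x, fun ε hε => ?_⟩
  obtain ⟨N, hN⟩ := Metric.tendsto_atTop.1 hx (c * ε) (mul_pos hc hε)
  refine ⟨N, fun i hi => (dist_le h _ _).trans_lt ?_⟩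
  rw [div_lt_iff₀ hc, ← dist_eq_norm, dist_comm, mul_comm ε c]
  exact hN i hi

end

end Vale.Agent.P225.Geo
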