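import Vale.Agent.P225.Geom.Ricci

/-!
# P225, geometry: the eigenvalues of the Ricci tensor
-/

namespace Vale.Agent.P225.Geo

open scoped ContDiff Topology

noncomputable section

namespace Prof

variable (P : Prof)

theorem hasdA (s : ℝ) : HasDerivAt (deriv P.A) (deriv (deriv P.A) s) s :=
  (P.dA.differentiable (by simp) s).hasDerivAt
theorem hasdB (s : ℝ) : HasDerivAt (deriv P.B) (deriv (deriv P.B) s) s :=
  (P.dB.differentiable (by simp) s).hasDerivAt

theorem deriv_c1 (s : ℝ) : deriv P.c1 s =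
    (deriv (deriv P.B) s * P.B s - deriv P.B s * deriv P.B s) / P.B s ^ 2 :=
  ((P.hasdB s).div (P.hasB s) (P.neB s)).deriv

theorem deriv_c2 (s : ℝ) : deriv P.c2 s =
    -(2 * P.B s * deriv P.B s) -
      (deriv P.B s * deriv P.B s + P.B s * deriv (deriv P.B) s) := by
  have h : HasDerivAt P.c2 _ s :=
    (((hasDerivAt_const s (1 : ℝ)).sub ((P.hasB s).pow 2)).sub ((P.hasB s).mul (P.hasdB s)))
  rw [h.deriv]; ring

theorem deriv_c3 (s : ℝ) : deriv P.c3 s =
    2 * P.B s * deriv P.B s + (deriv P.B s * deriv P.B s + P.B s * deriv (deriv P.B) s) -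
      2 * ((deriv (deriv P.B) s * P.B s - deriv P.B s * deriv P.B s) / P.B s ^ 2) := by
  have h : HasDerivAt P.c3 _ s :=
    ((((hasDerivAt_const s (-1 : ℝ)).add ((P.hasB s).pow 2)).add ((P.hasB s).mul (P.hasdB s))).sub
      (((P.hasdB s).const_mul 2).div (P.hasB s) (P.neB s)))
  rw [h.deriv]
  have := P.neB s
  field_simp
  ring

theorem deriv_c6 (s : ℝ) : deriv P.c6 s =
    2 * P.A s * deriv P.A s / P.B s ^ 2 - 2 * P.A s ^ 2 * deriv P.B s / P.B s ^ 3 := by
  have h : HasDerivAt P.c6 _ s :=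
    ((((P.hasA s).pow 2).div ((P.hasB s).pow 2) (pow_ne_zero 2 (P.neB s))).sub_const 1)
  rw [h.deriv]
  have := P.neB s
  simp only [Pi.pow_apply]
  field_simp
  ring

theorem deriv_c4 (s : ℝ) : deriv P.c4 s =
    2 * P.B s * deriv P.B s - 2 * P.A s * deriv P.A s
      - (deriv P.A s * deriv P.A s + P.A s * deriv (deriv P.A) s)
      + (deriv P.B s * deriv P.B s + P.B s * deriv (deriv P.B) s) + 2 * deriv P.c6 s := by
  rw [P.deriv_c6]
  have h : HasDerivAt P.c4 _ s :=
    ((((((P.hasB s).pow 2).sub ((P.hasA s).pow 2)).sub ((P.hasA s).mul (P.hasdA s))).add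
      ((P.hasB s).mul (P.hasdB s))).add
      ((((P.hasA s).pow 2).const_mul 2).div ((P.hasB s).pow 2)
        (pow_ne_zero 2 (P.neB s)))).sub_const 2
  rw [h.deriv]
  have := P.neB s
  simp only [Pi.pow_apply]
  field_simp
  ring

theorem deriv_fT (n : ℕ) (s : ℝ) : deriv (P.fT n) s = ((n : ℝ) - 2) * deriv P.c1 s +
    (deriv (deriv P.A) s * P.A s - deriv P.A s * deriv P.A s) / P.A s ^ 2 := by
  rw [P.deriv_c1]
  exact ((((P.hasdB s).div (P.hasB s) (P.neB s)).const_mul _).add
    ((P.hasdA s).div (P.hasA s) (P.neA s))).deriv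

end Prof

variable (P : Prof) (p : ℕ) (s : ℝ)

theorem alpha_eq : alpha P (amb p) s = ricBase p P.A P.B s * P.B s ^ 2 := by
  have := P.neA s; have := P.neB s
  simp only [alpha, ricBase, P.deriv_c2, Prof.c1, Prof.c2, Prof.c6, Prof.fT, amb]
  push_cast
  field_simp
  ring

theorem rad_eq : alpha P (amb p) s + beta P (amb p) s = ricRad p P.A P.B s := by
  have := P.neA s; have := P.neB s
  simp only [alpha, beta, qX, ricRad, P.deriv_fT, P.deriv_c1, P.deriv_c2, P.deriv_c3, Prof.c1,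
    Prof.c2, Prof.c3, Prof.c5, Prof.c6, Prof.fT, amb]
  push_cast
  field_simp
  ring

theorem fib_eq : alpha P (amb p) s + gamma P (amb p) s = ricFib p P.A P.B s * P.A s ^ 2 := by
  have := P.neA s; have := P.neB s
  simp only [alpha, gamma, qY, ricFib, P.deriv_c4, P.deriv_c6, P.deriv_c2, Prof.c1,
    Prof.c2, Prof.c4, Prof.c5, Prof.c6, Prof.fT, amb]
  push_cast
  field_simp
  ring

end

end Vale.Agent.P225.Geo
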