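import Vale.Agent.P225.Geom.Poly

/-!
# P225, geometry: the Laplacian of a radial function times a harmonic polynomial
-/

namespace Vale.Agent.P225.Geo

open scoped ContDiff Topology
open Filter

noncomputable section

variable {n : ℕ} (F : Frame n) (P : Prof)

/-- The coefficient of the contracted Christoffel symbols. -/
def kC (n : ℕ) (s : ℝ) : ℝ :=
  ((n : ℝ) - 2) * (1 / P.B s ^ 2 - 1 - deriv P.B s / P.B s) + 1 / P.A s ^ 2 - 1
    - deriv P.A s / P.A s

theorem gI_contract (x : Euc n) (H : Fin n → Fin n → ℝ) :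
    ∑ i, ∑ j, gI F P.A P.B x i j * H i j =
      rq 0 (fun s => 1 / P.B s ^ 2) x * ∑ i, H i i +
        rq 1 (fun s => 1 - 1 / P.B s ^ 2) x * (∑ i, ∑ j, x i * x j * H i j) +
        rq 1 (fun s => 1 / P.A s ^ 2 - 1 / P.B s ^ 2) x *
          (∑ i, ∑ j, F.y x i * F.y x j * H i j) := by
  simp only [gI, add_mul, Finset.sum_add_distrib, Finset.mul_sum, mul_assoc]
  simp [kd]

theorem gI_form (x : Euc n) (u v : Fin n → ℝ) :
    ∑ i, ∑ j, gI F P.A P.B x i j * (u i * v j) =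
      rq 0 (fun s => 1 / P.B s ^ 2) x * dot u v +
        rq 1 (fun s => 1 - 1 / P.B s ^ 2) x * (dot (x : Fin n → ℝ) u * dot (x : Fin n → ℝ) v) +
        rq 1 (fun s => 1 / P.A s ^ 2 - 1 / P.B s ^ 2) x * (dot (F.y x) u * dot (F.y x) v) := by
  rw [gI_contract]
  simp only [dot, dotProduct, Finset.sum_mul_sum]
  congr 1
  · congr 1
    exact congrArg _ (Finset.sum_congr rfl fun i _ => Finset.sum_congr rfl fun j _ => by ring)
  · exact congrArg _ (Finset.sum_congr rfl fun i _ => Finset.sum_congr rfl fun j _ => by ring)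

theorem gI_trace {x : Euc n} :
    ∑ i, ∑ j, gI F P.A P.B x i j * kd j i =
      rq 0 (fun s => 1 / P.B s ^ 2) x * (n : ℝ) +
        rq 1 (fun s => 1 - 1 / P.B s ^ 2) x * ‖x‖ ^ 2 +
        rq 1 (fun s => 1 / P.A s ^ 2 - 1 / P.B s ^ 2) x * ‖x‖ ^ 2 := by
  have h : ∀ z : Fin n → ℝ, ∑ i, ∑ j, z i * z j * kd j i = dot z z := fun z => by
    simp [kd, dot, dotProduct]
  have hn' : ∑ i : Fin n, kd i i = (n : ℝ) := by simp [kd]
  rw [gI_contract, h (F.y x), h (x : Fin n → ℝ), F.yy x, hn',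
    show dot (x : Fin n → ℝ) (x : Fin n → ℝ) = ‖x‖ ^ 2 from F.xx x]

theorem gI_chr {x : Euc n} (hx : x ≠ 0) (k : Fin n) :
    ∑ i, ∑ j, gI F P.A P.B x i j * chr F P x k i j =
      (‖x‖ ^ 2)⁻¹ * kC P n (Real.log ‖x‖) * x k := by
  have hn : ‖x‖ ≠ 0 := norm_ne_zero_iff.2 hx
  let di : Fin n → ℝ := fun i => kd i k
  let cl : Fin n → ℝ := fun i => F.J k i
  have key : ∀ i j, gI F P.A P.B x i j * chr F P x k i j =
      rq 1 P.c1 x * (gI F P.A P.B x i j * (x i * di j)) +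
      rq 1 P.c1 x * (gI F P.A P.B x i j * (di i * x j)) +
      rq 1 P.c2 x * x k * (gI F P.A P.B x i j * kd i j) +
      rq 2 P.c3 x * x k * (gI F P.A P.B x i j * (x i * x j)) +
      rq 2 P.c4 x * x k * (gI F P.A P.B x i j * (F.y x i * F.y x j)) +
      rq 2 P.c5 x * F.y x k * (gI F P.A P.B x i j * (x i * F.y x j)) +
      rq 2 P.c5 x * F.y x k * (gI F P.A P.B x i j * (F.y x i * x j)) +
      rq 1 P.c6 x * (gI F P.A P.B x i j * (cl i * F.y x j)) +
      rq 1 P.c6 x * (gI F P.A P.B x i j * (F.y x i * cl j)) := fun i j => by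
    simp only [chr, di, cl]; ring
  have htr : ∑ i, ∑ j, gI F P.A P.B x i j * kd i j = _ :=
    (Finset.sum_congr rfl fun i _ => Finset.sum_congr rfl fun j _ => by rw [kd_comm i j]).trans
      (gI_trace F P (x := x))
  have d1 : ∀ u : Fin n → ℝ, dot u di = u k := fun u => by simp [dot, dotProduct, di, kd]
  have d2 : ∀ u : Fin n → ℝ, dot di u = u k := fun u => by simp [dot, dotProduct, di, kd]
  have c1' : dot (x : Fin n → ℝ) cl = F.y x k := by
    simp [dot, dotProduct, cl, Frame.y, jvec, mul_comm]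
  have c2' : dot (F.y x) cl = -x k := by
    rw [← F.J_y x k]; simp [dot, dotProduct, cl, mul_comm]
  have c3' : dot cl (F.y x) = -x k := by rw [dot, dotProduct_comm]; exact c2'
  have hyx : dot (F.y x) (x : Fin n → ℝ) = 0 := by
    rw [dot, dotProduct_comm]; exact F.xy x
  have hxx : dot (x : Fin n → ℝ) x = ‖x‖ ^ 2 := F.xx x
  simp only [key, Finset.sum_add_distrib, ← Finset.mul_sum, gI_form, htr, d1, d2, c1', c2', c3',
    hyx, hxx, F.xy, F.yy]
  have hA := P.neA (Real.log ‖x‖)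
  have hB := P.neB (Real.log ‖x‖)
  simp only [rq_eq, kC, Prof.c1, Prof.c2, Prof.c3, Prof.c4, Prof.c6, pow_zero, one_mul]
  field_simp
  ring

/-- `φ(log r) P(x)`. -/
def radHarm (φ : ℝ → ℝ) (Q : Poly n) (x : Euc n) : ℝ := φ (Real.log ‖x‖) * ev x Q

theorem hasPd_radHarm {φ : ℝ → ℝ} (hφ : Differentiable ℝ φ) (Q : Poly n) {x : Euc n}
    (hx : x ≠ 0) :
    HasPd (radHarm φ Q)
      (fun j => rq 1 (deriv φ) x * x j * ev x Q + φ (Real.log ‖x‖) * grad x Q j) x := by
  have h := ((HasPd.rq hx 0 (hφ (Real.log ‖x‖)).hasDerivAt).mul (hasPd_ev Q x)).congr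
    (b := fun j => rq 1 (deriv φ) x * x j * ev x Q + φ (Real.log ‖x‖) * grad x Q j) fun j => by
      simp only [rq_eq]; push_cast; ring
  have e : radHarm φ Q = fun y => rq 0 φ y * ev y Q := funext fun y => by simp [radHarm, rq_eq]
  rw [e]; exact h

theorem pd_pd_radHarm {φ : ℝ → ℝ} (hφ : ContDiff ℝ ∞ φ) (Q : Poly n) {x : Euc n} (hx : x ≠ 0)
    (i j : Fin n) :
    pd (pd (radHarm φ Q) j) i x =
      (‖x‖ ^ 2)⁻¹ ^ 2 * (deriv (deriv φ) (Real.log ‖x‖) - 2 * deriv φ (Real.log ‖x‖)) * ev x Q *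
          (x i * x j) +
        (‖x‖ ^ 2)⁻¹ * deriv φ (Real.log ‖x‖) * ev x Q * kd j i +
        (‖x‖ ^ 2)⁻¹ * deriv φ (Real.log ‖x‖) * (x j * grad x Q i + x i * grad x Q j) +
        φ (Real.log ‖x‖) * hess x Q i j := by
  have h1 : Differentiable ℝ φ := hφ.differentiable (by simp)
  have h2 : Differentiable ℝ (deriv φ) :=
    (contDiff_infty_iff_deriv.1 hφ).2.differentiable (by simp)
  have hev : pd (radHarm φ Q) j =ᶠ[𝓝 x]
      fun y => rq 1 (deriv φ) y * (y j * ev y Q) + rq 0 φ y * ev y (MvPolynomial.pderiv j Q) := by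
    filter_upwards [isOpen_ne.mem_nhds hx] with y hy
    rw [(hasPd_radHarm h1 Q hy).2 j]
    simp only [grad, rq_eq]; ring
  have h := (((HasPd.rq hx 1 (h2 (Real.log ‖x‖)).hasDerivAt).mul
      ((HasPd.coord j).mul (hasPd_ev Q x))).add
    ((HasPd.rq hx 0 (h1 (Real.log ‖x‖)).hasDerivAt).mul
      (hasPd_ev (MvPolynomial.pderiv j Q) x))).congr_nhds hev
  rw [h.2 i]
  simp only [grad, hess, rq_eq]
  push_cast
  ring

/-- The value of the Laplacian on `φ(log r) P`. -/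
theorem laplace_radHarm {l : ℕ} {φ : ℝ → ℝ} (hφ : ContDiff ℝ ∞ φ) {Q : Poly n} (hQ : IsHarm l Q)
    {x : Euc n} (hx : x ≠ 0) :
    laplace (gM F P.A P.B) (radHarm φ Q) x = (‖x‖ ^ 2)⁻¹ *
      ((deriv (deriv φ) (Real.log ‖x‖) +
          (((n : ℝ) - 2) * (1 + deriv P.B (Real.log ‖x‖) / P.B (Real.log ‖x‖))
            + deriv P.A (Real.log ‖x‖) / P.A (Real.log ‖x‖) + 2 * l) *
            deriv φ (Real.log ‖x‖) +
          (l : ℝ) * ((l : ℝ) + ((n : ℝ) - 2) * (1 + deriv P.B (Real.log ‖x‖) / P.B (Real.log ‖x‖))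
            + deriv P.A (Real.log ‖x‖) / P.A (Real.log ‖x‖)
            - ((l : ℝ) + ((n : ℝ) - 2)) / P.B (Real.log ‖x‖) ^ 2) * φ (Real.log ‖x‖)) * ev x Q +
        (1 / P.A (Real.log ‖x‖) ^ 2 - 1 / P.B (Real.log ‖x‖) ^ 2) *
          φ (Real.log ‖x‖) * ev x (xi F.J (xi F.J Q))) := by
  have hn : ‖x‖ ≠ 0 := norm_ne_zero_iff.2 hx
  have hA := P.neA (Real.log ‖x‖)
  have hB := P.neB (Real.log ‖x‖)
  set s := Real.log ‖x‖ with hs
  set e := (‖x‖ ^ 2)⁻¹ with he
  have hg := (hasPd_radHarm (hφ.differentiable (by simp)) Q hx).2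
  have hc : ∑ i, ∑ j, gI F P.A P.B x i j * ∑ k, chr F P x k i j * pd (radHarm φ Q) k x =
      ∑ k, (e * kC P n s * x k) * pd (radHarm φ Q) k x := by
    simp only [Finset.mul_sum]
    rw [Finset.sum_congr rfl fun i _ => Finset.sum_comm, Finset.sum_comm]
    refine Finset.sum_congr rfl fun k _ => ?_
    rw [← gI_chr F P hx k, Finset.sum_mul]
    exact Finset.sum_congr rfl fun i _ => by
      rw [Finset.sum_mul]; exact Finset.sum_congr rfl fun j _ => by ring
  have h0 : laplace (gM F P.A P.B) (radHarm φ Q) x =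
      ∑ i, ∑ j, gI F P.A P.B x i j * pd (pd (radHarm φ Q) j) i x -
        ∑ i, ∑ j, gI F P.A P.B x i j * ∑ k, chr F P x k i j * pd (radHarm φ Q) k x := by
    simp only [laplace, inv_gM hx hA hB, christoffel_gM F P hx, mul_sub, Finset.sum_sub_distrib]
  have hH : ∀ i j, gI F P.A P.B x i j * pd (pd (radHarm φ Q) j) i x =
      e ^ 2 * (deriv (deriv φ) s - 2 * deriv φ s) * ev x Q * (gI F P.A P.B x i j * (x i * x j)) +
      e * deriv φ s * ev x Q * (gI F P.A P.B x i j * kd j i) +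
      e * deriv φ s * (gI F P.A P.B x i j * (grad x Q i * x j)) +
      e * deriv φ s * (gI F P.A P.B x i j * (x i * grad x Q j)) +
      φ s * (gI F P.A P.B x i j * hess x Q i j) := fun i j => by
    rw [pd_pd_radHarm hφ Q hx]; simp only [e, s]; ring
  have htr := gI_trace F P (x := x)
  have hyx : dot (F.y x) (x : Fin n → ℝ) = 0 := by
    rw [dot, dotProduct_comm]; exact F.xy x
  have hxx : dot (x : Fin n → ℝ) x = ‖x‖ ^ 2 := F.xx x
  have hgx : dot (x : Fin n → ℝ) (grad x Q) = (l : ℝ) * ev x Q := euler hQ.1 x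
  have hxg : dot (grad x Q) (x : Fin n → ℝ) = (l : ℝ) * ev x Q := by
    rw [dot, dotProduct_comm]; exact hgx
  have hxi : ∑ i, ∑ j, F.y x i * F.y x j * hess x Q i j =
      ev x (xi F.J (xi F.J Q)) + (l : ℝ) * ev x Q := by
    rw [ev_xi_xi F hQ.1]; ring
  have hk : ∑ k, (e * kC P n s * x k) * pd (radHarm φ Q) k x =
      e * kC P n s * (deriv φ s * ev x Q + φ s * ((l : ℝ) * ev x Q)) := by
    have key : ∀ k, (e * kC P n s * x k) * pd (radHarm φ Q) k x =
        e * kC P n s * (e * deriv φ s * ev x Q) * (x k * x k) +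
          e * kC P n s * φ s * (x k * grad x Q k) := fun k => by
      rw [hg]; simp only [rq_eq, e, s]; ring
    have hx2 : ∑ k, x k * x k = ‖x‖ ^ 2 := F.xx x
    simp only [key, Finset.sum_add_distrib, ← Finset.mul_sum, hx2, euler hQ.1]
    simp only [e]; field_simp
  rw [h0, hc, hk]
  simp only [hH, Finset.sum_add_distrib, ← Finset.mul_sum, htr, gI_form, hyx, hxx, hgx, hxg,
    gI_contract F P x (hess x Q), hess_trace hQ, euler_hess hQ.1, hxi, F.xy]
  simp only [rq_eq, kC, e, s, pow_zero, one_mul]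
  field_simp
  ring

end

end Vale.Agent.P225.Geo
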