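import Vale.Agent.P225.Geom.Metric

/-!
# P225, geometry: the curvature and the Laplacian depend only on the germ of the metric
-/

namespace Vale.Agent.P225.Geo

open scoped ContDiff Topology
open Filter

noncomputable section

variable {n : ℕ} {g h : Field n} {x : Euc n}

theorem pd_entry_congr (e : g =ᶠ[𝓝 x] h) (i j l : Fin n) :
    pd (fun y => g y j l) i x = pd (fun y => h y j l) i x := by
  have e' : (fun y => g y j l) =ᶠ[𝓝 x] fun y => h y j l := e.mono fun y hy => by
    show g y j l = h y j l
    rw [hy]
  rw [pd, pd, e'.fderiv_eq]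

theorem christoffel_congr (e : g =ᶠ[𝓝 x] h) (k i j : Fin n) :
    christoffel g x k i j = christoffel h x k i j := by
  simp only [christoffel, pd_entry_congr e, e.eq_of_nhds]

theorem ricci_congr (e : g =ᶠ[𝓝 x] h) (i j : Fin n) : ricci g x i j = ricci h x i j := by
  have he : ∀ k a b, (fun y => christoffel g y k a b) =ᶠ[𝓝 x] fun y => christoffel h y k a b :=
    fun k a b => e.eventuallyEq_nhds.mono fun y hy => christoffel_congr hy k a b
  simp only [ricci, pd, (he _ _ _).fderiv_eq, christoffel_congr e]

theorem laplace_congr (e : g =ᶠ[𝓝 x] h) (u : Euc n → ℝ) : laplace g u x = laplace h u x := by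
  simp only [laplace, christoffel_congr e, e.eq_of_nhds]

theorem christoffel_const (M : Matrix (Fin n) (Fin n) ℝ) (k i j : Fin n) :
    christoffel (fun _ => M) x k i j = 0 := by
  simp [christoffel, pd]

theorem ricci_const (M : Matrix (Fin n) (Fin n) ℝ) (i j : Fin n) :
    ricci (fun _ => M) x i j = 0 := by
  simp [ricci, pd, christoffel_const]

end

end Vale.Agent.P225.Geo
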