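import Vale.Agent.P225.Geom.Laplace
import Vale.Agent.P225.Geom.Local

/-!
# P225, geometry: smooth harmonic functions from the radial system
-/

namespace Vale.Agent.P225

open scoped ContDiff Topology
open Filter

noncomputable section

namespace Geo

variable {n : ℕ}

theorem laplace_congr_fun (g : Field n) {u w : Euc n → ℝ} {x : Euc n} (e : u =ᶠ[𝓝 x] w) :
    laplace g u x = laplace g w x := by
  have h1 : ∀ k, pd u k =ᶠ[𝓝 x] pd w k := fun k => e.eventuallyEq_nhds.mono fun y hy => by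
    simp only [pd, hy.fderiv_eq]
  have h2 : ∀ i k, pd (pd u k) i x = pd (pd w k) i x := fun i k => by
    show fderiv ℝ (pd u k) x _ = fderiv ℝ (pd w k) x _
    rw [(h1 k).fderiv_eq]
  simp only [laplace, h2, (h1 _).eq_of_nhds]

theorem contDiffAt_pd {u : Euc n → ℝ} {x : Euc n} (h : ContDiffAt ℝ ∞ u x) (j : Fin n) :
    ContDiffAt ℝ ∞ (pd u j) x :=
  (h.fderiv_right (m := ∞) (by simp)).clm_apply contDiffAt_const

theorem laplace_sum {d : ℕ} (g : Field n) {u : Fin d → Euc n → ℝ} {x : Euc n} {S : Set (Euc n)}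
    (hS : S ∈ 𝓝 x) (hu : ∀ a, ∀ y ∈ S, ContDiffAt ℝ ∞ (u a) y) :
    laplace g (fun y => ∑ a, u a y) x = ∑ a, laplace g (u a) x := by
  have hd : ∀ y ∈ S, ∀ j, pd (fun y => ∑ a, u a y) j y = ∑ a, pd (u a) j y := fun y hy j => by
    simp only [pd]
    rw [fderiv_fun_sum fun a _ => (hu a y hy).differentiableAt (by simp)]
    simp
  have hx := mem_of_mem_nhds hS
  have hd2 : ∀ i j, pd (pd (fun y => ∑ a, u a y) j) i x = ∑ a, pd (pd (u a) j) i x := fun i j => by
    have e : pd (fun y => ∑ a, u a y) j =ᶠ[𝓝 x] fun y => ∑ a, pd (u a) j y :=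
      Filter.mem_of_superset hS fun y hy => hd y hy j
    show fderiv ℝ (pd (fun y => ∑ a, u a y) j) x _ = _
    rw [e.fderiv_eq,
      fderiv_fun_sum fun a _ => (contDiffAt_pd (hu a x hx) j).differentiableAt (by simp)]
    simp [pd]
  calc laplace g (fun y => ∑ a, u a y) x
      = ∑ i, ∑ j, ∑ a, (g x)⁻¹ i j *
          (pd (pd (u a) j) i x - ∑ k, christoffel g x k i j * pd (u a) k x) := by
        refine Finset.sum_congr rfl fun i _ => Finset.sum_congr rfl fun j _ => ?_
        simp only [hd x hx, hd2]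
        rw [← Finset.mul_sum]
        refine congrArg _ ?_
        rw [Finset.sum_sub_distrib]
        refine congrArg₂ _ rfl ?_
        simp only [Finset.mul_sum]
        exact Finset.sum_comm
    _ = ∑ i, ∑ a, ∑ j, (g x)⁻¹ i j *
          (pd (pd (u a) j) i x - ∑ k, christoffel g x k i j * pd (u a) k x) :=
        Finset.sum_congr rfl fun i _ => Finset.sum_comm
    _ = _ := Finset.sum_comm

theorem laplace_flat (Q : Poly n) (x : Euc n) :
    laplace (fun _ i j => kd i j) (fun y => ev y Q) x = ∑ i, hess x Q i i := by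
  have h0 : ∀ k i j, christoffel (fun _ i j => kd i j) x k i j = 0 :=
    fun k i j => christoffel_const _ k i j
  have h1 : ∀ j, pd (fun y => ev y Q) j = fun y => ev y (MvPolynomial.pderiv j Q) :=
    fun j => funext fun y => (hasPd_ev Q y).2 j
  have h2 : ∀ i j, pd (pd (fun y => ev y Q) j) i x = hess x Q i j := fun i j => by
    rw [h1 j, (hasPd_ev _ x).2 i]; rfl
  have hI : ∀ M : Matrix (Fin n) (Fin n) ℝ, (∀ i j, M i j = kd i j) → M⁻¹ = 1 := fun M hM => by
    rw [show M = 1 from Matrix.ext fun i j => by rw [hM]; simp [kd, Matrix.one_apply], inv_one]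
  simp only [laplace, h0, h2, hI _ fun _ _ => rfl]
  simp [Matrix.one_apply]

theorem exists_prof {J : ℝ → Matrix (Fin n) (Fin n) ℝ} {A B : ℝ → ℝ} {c : ℝ}
    (h : IsProfile J A B c) : ∃ P : Prof, P.A = A ∧ P.B = B :=
  ⟨⟨A, B, h.1, h.2.1, fun s => (prof_pos h s).1, fun s => (prof_pos h s).2⟩, rfl, rfl⟩

theorem contDiffAt_radHarm {φ : ℝ → ℝ} (hφ : ContDiff ℝ ∞ φ) (Q : Poly n) {x : Euc n}
    (hx : x ≠ 0) : ContDiffAt ℝ ∞ (radHarm φ Q) x :=
  (hφ.contDiffAt.comp x ((contDiffAt_norm ℝ hx).log (norm_ne_zero_iff.2 hx))).mul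
    (contDiff_ev Q).contDiffAt

end Geo

open Geo in
theorem laplace_ok : LaplaceStmt := by
  intro p J A B c l d b Y v _ h hb hY hY0 hode
  set φ : Fin d → ℝ → ℝ := fun a s => Real.exp (-((l : ℝ) * s)) * Y s a with hφdef
  have hYa : ∀ a, ContDiff ℝ ∞ fun s => Y s a := fun a => (contDiff_pi.1 hY) a
  have hφ : ∀ a, ContDiff ℝ ∞ (φ a) := fun a =>
    (Real.contDiff_exp.comp (contDiff_const.mul contDiff_id).neg).mul (hYa a)
  have hφ0 : ∀ a, ∀ s ≤ 0, φ a s = v a := fun a s hs => by
    simp only [φ, hY0 s hs, Pi.smul_apply, smul_eq_mul, ← mul_assoc, ← Real.exp_add]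
    simp
  have hsmall : ∀ x : Euc (amb p), ‖x‖ ≤ 1 →
      ∑ a, radHarm (φ a) (b a) x = ev x (∑ a, v a • b a) := fun x hx => by
    simp [radHarm, ev, hφ0 _ _ (Real.log_nonpos (norm_nonneg x) hx)]
  have hev : ∀ x : Euc (amb p), ‖x‖ < 1 → (fun y => ∑ a, radHarm (φ a) (b a) y) =ᶠ[𝓝 x]
      fun y => ev y (∑ a, v a • b a) := fun x hx => by
    filter_upwards [(isOpen_lt continuous_norm continuous_const).mem_nhds hx] with y hy
    exact hsmall y (le_of_lt hy)
  refine ⟨fun x => ∑ a, radHarm (φ a) (b a) x, ?_, fun x => ?_, fun x hx => ?_, ?_⟩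
  · refine contDiff_iff_contDiffAt.2 fun x => ?_
    by_cases hx : x = 0
    · exact (contDiff_ev _).contDiffAt.congr_of_eventuallyEq (hev x (by simp [hx]))
    · exact ContDiffAt.sum fun a _ => contDiffAt_radHarm (hφ a) (b a) hx
  · by_cases hx : x = 0
    · have hn : ‖x‖ < 1 := by simp [hx]
      rw [laplace_congr_fun _ (hev x hn), laplace_congr (gOf_eventually_small h hn), laplace_flat]
      simp only [hess, ev, map_sum, Derivation.map_smul, MvPolynomial.smul_eval]
      rw [Finset.sum_comm]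
      refine Finset.sum_eq_zero fun a _ => ?_
      rw [← Finset.mul_sum]
      exact mul_eq_zero_of_right _ (hess_trace (hb a) x)
    · obtain ⟨P, hPA, hPB⟩ := exists_prof h
      set F : Frame (amb p) := ⟨J (Real.log ‖x‖), h.2.2.1 _⟩ with hF
      have hg : gOf J A B =ᶠ[𝓝 x] gM F P.A P.B := by
        rw [hPA, hPB]; exact gOf_eventuallyEq h hx
      rw [laplace_congr hg,
        laplace_sum _ (isOpen_ne.mem_nhds hx) fun a y hy => contDiffAt_radHarm (hφ a) (b a) hy]
      simp only [laplace_radHarm F P (hφ _) (hb _) hx]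
      set s := Real.log ‖x‖ with hs
      have hode' := congrArg (ev x) (hode s)
      rw [show J s = F.J from rfl, xi_sum_smul, xi_sum_smul] at hode'
      simp only [ev, map_sum, map_sub, MvPolynomial.smul_eval, Finset.mul_sum] at hode'
      have hYd : ∀ a t, HasDerivAt (fun s => Y s a) (deriv Y t a) t := fun a t =>
        (hasDerivAt_pi.1 (hY.differentiable (by simp) t).hasDerivAt) a
      have hYdd : ∀ a t, HasDerivAt (fun s => deriv Y s a) (deriv (deriv Y) t a) t := fun a t =>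
        (hasDerivAt_pi.1
          (((contDiff_infty_iff_deriv.1 hY).2).differentiable (by simp) t).hasDerivAt) a
      have hexp : ∀ t : ℝ, HasDerivAt (fun s : ℝ => Real.exp (-((l : ℝ) * s)))
          (Real.exp (-((l : ℝ) * t)) * -(l : ℝ)) t := fun t =>
        ((((hasDerivAt_id t).const_mul (l : ℝ)).neg.congr_deriv (by simp) :
          HasDerivAt (fun s : ℝ => -((l : ℝ) * s)) (-(l : ℝ)) t)).exp
      have hd1 : ∀ a, deriv (φ a) = fun t =>
          Real.exp (-((l : ℝ) * t)) * (deriv Y t a - (l : ℝ) * Y t a) := fun a =>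
        funext fun t => by
          show deriv (fun s => Real.exp (-((l : ℝ) * s)) * Y s a) t = _
          rw [((hexp t).fun_mul (hYd a t)).deriv]; ring
      have hd2 : ∀ a, deriv (deriv (φ a)) s = Real.exp (-((l : ℝ) * s)) *
          (deriv (deriv Y) s a - 2 * (l : ℝ) * deriv Y s a + (l : ℝ) ^ 2 * Y s a) := fun a => by
        rw [hd1 a, ((hexp s).fun_mul ((hYdd a s).fun_sub ((hYd a s).const_mul (l : ℝ)))).deriv]
        ring
      simp only [hd2]
      simp only [hd1, φ, hPA, hPB, ev]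
      rw [← Finset.mul_sum]
      refine mul_eq_zero_of_right _ ?_
      rw [← sub_eq_zero, ← Finset.sum_sub_distrib, ← Finset.sum_sub_distrib] at hode'
      refine Eq.trans ?_ (mul_zero (Real.exp (-((l : ℝ) * s))))
      rw [← hode', Finset.mul_sum]
      refine Finset.sum_congr rfl fun a _ => ?_
      simp only [amb]
      push_cast
      ring
  · exact hsmall x hx
  · refine ⟨∑ a, ∑ e ∈ (b a).support, |(b a).coeff e|, fun x hx => ?_⟩
    have hr : (0 : ℝ) < ‖x‖ := lt_of_lt_of_le one_pos hx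
    refine (Finset.abs_sum_le_sum_abs _ _).trans ?_
    rw [Finset.mul_sum]
    refine Finset.sum_le_sum fun a _ => ?_
    have he : Real.exp (-((l : ℝ) * Real.log ‖x‖)) = (‖x‖ ^ l)⁻¹ := by
      rw [← Real.log_pow, Real.exp_neg, Real.exp_log (pow_pos hr l)]
    have h0 : 0 ≤ |Y (Real.log ‖x‖) a| := abs_nonneg _
    simp only [radHarm, φ, he, abs_mul, abs_inv, abs_of_pos (pow_pos hr l)]
    calc (‖x‖ ^ l)⁻¹ * |Y (Real.log ‖x‖) a| * |ev x (b a)|
        ≤ (‖x‖ ^ l)⁻¹ * |Y (Real.log ‖x‖) a| *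
          ((∑ e ∈ (b a).support, |(b a).coeff e|) * ‖x‖ ^ l) :=
          mul_le_mul_of_nonneg_left (abs_ev_le (hb a).1 x)
            (mul_nonneg (inv_nonneg.2 (pow_nonneg hr.le l)) h0)
      _ = (∑ e ∈ (b a).support, |(b a).coeff e|) * |Y (Real.log ‖x‖) a| := by field_simp
      _ ≤ _ := mul_le_mul_of_nonneg_right (Finset.single_le_sum
          (f := fun a => ∑ e ∈ (b a).support, |(b a).coeff e|)
          (fun a _ => Finset.sum_nonneg fun e _ => abs_nonneg _) (Finset.mem_univ a)) h0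

end

end Vale.Agent.P225
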