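import Vale.Agent.P225.Geom.Eigen
import Vale.Agent.P225.Geom.Dist
import Vale.Agent.P225.Geom.Local

/-!
# P225, geometry: the geometry statement
-/

namespace Vale.Agent.P225

open scoped ContDiff Topology
open Filter

noncomputable section

/-- The profiles as a bundled pair. -/
def Geo.profOf {n : ℕ} {J : ℝ → Matrix (Fin n) (Fin n) ℝ} {A B : ℝ → ℝ} {c : ℝ}
    (h : IsProfile J A B c) : Geo.Prof :=
  ⟨A, B, h.1, h.2.1, fun s => (Geo.prof_pos h s).1, fun s => (Geo.prof_pos h s).2⟩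

open Geo in
theorem geom_ok : GeomStmt := by
  intro p J A B c _ h
  refine ⟨gOf_isMetric h, gOf_complete h, fun x => by simpa using dist_ge h 0 x, fun hR x v => ?_⟩
  by_cases hx : x = 0
  · refine le_of_eq (Finset.sum_eq_zero fun i _ => Finset.sum_eq_zero fun j _ => ?_).symm
    exact mul_eq_zero_of_right _
      ((ricci_congr (gOf_eventually_small h (by simp [hx])) i j).trans (ricci_const _ i j))
  have hr : ∀ i j, ricci (gOf J A B) x i j = _ := fun i j =>
    (ricci_congr (gOf_eventuallyEq h hx) i j).trans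
      (ricci_gM ⟨J (Real.log ‖x‖), h.2.2.1 _⟩ (profOf h) hx i j)
  simp only [hr]
  rw [form_shape]
  obtain ⟨hrad, hfib, hbase⟩ := hR (Real.log ‖x‖)
  have ha : 0 ≤ alpha (profOf h) (amb p) (Real.log ‖x‖) := by
    rw [alpha_eq]; exact mul_nonneg hbase (sq_nonneg _)
  have hb : 0 ≤ alpha (profOf h) (amb p) (Real.log ‖x‖) + beta (profOf h) (amb p) (Real.log ‖x‖) :=
    by rw [rad_eq]; exact hrad
  have hc : 0 ≤ alpha (profOf h) (amb p) (Real.log ‖x‖) + gamma (profOf h) (amb p) (Real.log ‖x‖) :=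
    by rw [fib_eq]; exact mul_nonneg hfib (sq_nonneg _)
  have hbe := bessel ⟨J (Real.log ‖x‖), h.2.2.1 _⟩ hx v
  set e := (‖x‖ ^ 2)⁻¹
  set X := dot (x : Fin (amb p) → ℝ) v ^ 2
  set Z := dot (Frame.y ⟨J (Real.log ‖x‖), h.2.2.1 _⟩ x) v ^ 2
  have he : 0 ≤ e := inv_nonneg.2 (sq_nonneg _)
  have hX : 0 ≤ e * X := mul_nonneg he (sq_nonneg _)
  have hZ : 0 ≤ e * Z := mul_nonneg he (sq_nonneg _)
  have t1 := mul_nonneg (mul_nonneg he ha) (sub_nonneg.2 hbe)
  have t2 := mul_nonneg (mul_nonneg he hb) hX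
  have t3 := mul_nonneg (mul_nonneg he hc) hZ
  nlinarith [t1, t2, t3]

end

end Vale.Agent.P225
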