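import Vale.Agent.P225.Geom.Radial

/-!
# P225, geometry: the local model, its inverse and the metric properties
-/

namespace Vale.Agent.P225.Geo

open scoped ContDiff Topology Matrix
open Filter

noncomputable section

variable {n : ℕ}

theorem rq_eq (k : ℕ) (φ : ℝ → ℝ) (x : Euc n) :
    rq k φ x = ((‖x‖ ^ 2)⁻¹) ^ k * φ (Real.log ‖x‖) := rfl

theorem contDiffAt_rq {φ : ℝ → ℝ} (hφ : ContDiff ℝ ∞ φ) (k : ℕ) {x : Euc n} (hx : x ≠ 0) :
    ContDiffAt ℝ ∞ (rq k φ) x := by
  have h1 : ContDiffAt ℝ ∞ (fun y : Euc n => ((‖y‖ ^ 2)⁻¹) ^ k) x :=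
    ((((contDiff_norm_sq ℝ).contDiffAt (x := x)).inv (pow_ne_zero 2 (norm_ne_zero_iff.2 hx))).pow k)
  exact h1.mul (hφ.contDiffAt.comp x ((contDiffAt_norm ℝ hx).log (norm_ne_zero_iff.2 hx)))

theorem contDiff_coord (i : Fin n) : ContDiff ℝ ∞ fun y : Euc n => y i :=
  (EuclideanSpace.proj i : Euc n →L[ℝ] ℝ).contDiff

theorem contDiff_jvec (J : Matrix (Fin n) (Fin n) ℝ) (i : Fin n) :
    ContDiff ℝ ∞ fun y : Euc n => jvec J y i :=
  ContDiff.sum fun j _ => contDiff_const.mul (contDiff_coord j)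

/-- The entries of the metric for a fixed complex structure. -/
def gM (F : Frame n) (A B : ℝ → ℝ) : Field n := fun x i j =>
  rq 0 (fun s => B s ^ 2) x * kd i j + rq 1 (fun s => 1 - B s ^ 2) x * (x i * x j) +
    rq 1 (fun s => A s ^ 2 - B s ^ 2) x * (F.y x i * F.y x j)

/-- The entries of the inverse metric. -/
def gI (F : Frame n) (A B : ℝ → ℝ) : Field n := fun x i j =>
  rq 0 (fun s => 1 / B s ^ 2) x * kd i j + rq 1 (fun s => 1 - 1 / B s ^ 2) x * (x i * x j) +
    rq 1 (fun s => 1 / A s ^ 2 - 1 / B s ^ 2) x * (F.y x i * F.y x j)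

theorem contDiffAt_gM (F : Frame n) {A B : ℝ → ℝ} (hA : ContDiff ℝ ∞ A) (hB : ContDiff ℝ ∞ B)
    (i j : Fin n) {x : Euc n} (hx : x ≠ 0) : ContDiffAt ℝ ∞ (fun y => gM F A B y i j) x :=
  (((contDiffAt_rq (hB.pow 2) 0 hx).mul contDiffAt_const).add
    ((contDiffAt_rq (contDiff_const.sub (hB.pow 2)) 1 hx).mul
      ((contDiff_coord i).mul (contDiff_coord j)).contDiffAt)).add
    ((contDiffAt_rq ((hA.pow 2).sub (hB.pow 2)) 1 hx).mul
      ((contDiff_jvec F.J i).mul (contDiff_jvec F.J j)).contDiffAt)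

/-- A matrix field of the standard shape applied to a vector. -/
theorem sum_shape (x y w : Fin n → ℝ) (a b c : ℝ) (i : Fin n) :
    ∑ j, (a * kd i j + b * (x i * x j) + c * (y i * y j)) * w j =
      a * w i + b * dot x w * x i + c * dot y w * y i := by
  simp only [add_mul, Finset.sum_add_distrib, dot, dotProduct, Finset.mul_sum, Finset.sum_mul]
  congr 1
  · congr 1
    · simp [kd]
    · exact Finset.sum_congr rfl fun j _ => by ring
  · exact Finset.sum_congr rfl fun j _ => by ring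

variable {F : Frame n} {A B : ℝ → ℝ}

theorem gM_mul_gI {x : Euc n} (hx : x ≠ 0) (hA : A (Real.log ‖x‖) ≠ 0)
    (hB : B (Real.log ‖x‖) ≠ 0) (i j : Fin n) : ∑ k, gM F A B x i k * gI F A B x k j = kd i j := by
  have hn : ‖x‖ ≠ 0 := norm_ne_zero_iff.2 hx
  have e1 : dot (x : Fin n → ℝ) (fun k => gI F A B x k j) = x j := by
    calc dot (x : Fin n → ℝ) (fun k => gI F A B x k j)
        = ∑ k, gI F A B x j k * x k := Finset.sum_congr rfl fun k _ => by
          simp only [gI, kd, eq_comm (a := j)]; ring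
      _ = _ := by
          simp only [gI]; rw [sum_shape, show dot (x : Fin n → ℝ) x = ‖x‖ ^ 2 from F.xx x,
            show dot (F.y x) (x : Fin n → ℝ) = 0 by rw [dot, dotProduct_comm]; exact F.xy x]
          simp only [rq_eq]; field_simp; ring
  have e2 : dot (F.y x) (fun k => gI F A B x k j) = F.y x j / A (Real.log ‖x‖) ^ 2 := by
    calc dot (F.y x) (fun k => gI F A B x k j)
        = ∑ k, gI F A B x j k * F.y x k := Finset.sum_congr rfl fun k _ => by
          simp only [gI, kd, eq_comm (a := j)]; ring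
      _ = _ := by
          simp only [gI]; rw [sum_shape, F.xy, F.yy]
          simp only [rq_eq]; field_simp; ring
  simp only [gM]; rw [sum_shape, e1, e2]
  simp only [gI, rq_eq]; field_simp; ring

theorem inv_gM {x : Euc n} (hx : x ≠ 0) (hA : A (Real.log ‖x‖) ≠ 0)
    (hB : B (Real.log ‖x‖) ≠ 0) : (gM F A B x)⁻¹ = gI F A B x := by
  refine Matrix.inv_eq_right_inv (Matrix.ext fun i j => ?_)
  rw [Matrix.mul_apply, gM_mul_gI hx hA hB, Matrix.one_apply]; rfl

theorem form_shape (x y v : Fin n → ℝ) (a b c : ℝ) :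
    ∑ i, ∑ j, v i * v j * (a * kd i j + b * (x i * x j) + c * (y i * y j)) =
      a * dot v v + b * dot x v ^ 2 + c * dot y v ^ 2 := by
  calc _ = ∑ i, v i * ∑ j, (a * kd i j + b * (x i * x j) + c * (y i * y j)) * v j :=
        Finset.sum_congr rfl fun i _ => by
          rw [Finset.mul_sum]; exact Finset.sum_congr rfl fun j _ => by ring
    _ = _ := by
        simp only [sum_shape]
        simp only [mul_add, Finset.sum_add_distrib, dot, dotProduct, sq]
        congr 1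
        · congr 1
          · rw [Finset.mul_sum]; exact Finset.sum_congr rfl fun i _ => by ring
          · simp only [Finset.mul_sum, Finset.sum_mul]
            exact Finset.sum_congr rfl fun i _ => Finset.sum_congr rfl fun j _ => by ring
        · simp only [Finset.mul_sum, Finset.sum_mul]
          exact Finset.sum_congr rfl fun i _ => Finset.sum_congr rfl fun j _ => by ring

/-- Bessel's inequality for `x` and `J x`. -/
theorem bessel (F : Frame n) {x : Euc n} (hx : x ≠ 0) (v : Fin n → ℝ) :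
    (‖x‖ ^ 2)⁻¹ * (dot (x : Fin n → ℝ) v ^ 2 + dot (F.y x) v ^ 2) ≤ dot v v := by
  have hn : ‖x‖ ≠ 0 := norm_ne_zero_iff.2 hx
  set a := (‖x‖ ^ 2)⁻¹ * dot (x : Fin n → ℝ) v
  set b := (‖x‖ ^ 2)⁻¹ * dot (F.y x) v
  have h : 0 ≤ dot (fun i => v i - a * x i - b * F.y x i) (fun i => v i - a * x i - b * F.y x i) :=
    Finset.sum_nonneg fun i _ => mul_self_nonneg _
  have e : dot (fun i => v i - a * x i - b * F.y x i) (fun i => v i - a * x i - b * F.y x i) =
      dot v v - 2 * a * dot (x : Fin n → ℝ) v - 2 * b * dot (F.y x) v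
        + a ^ 2 * dot (x : Fin n → ℝ) x + b ^ 2 * dot (F.y x) (F.y x)
        + 2 * a * b * dot (x : Fin n → ℝ) (F.y x) := by
    simp only [dot, dotProduct, Finset.mul_sum, ← Finset.sum_sub_distrib, ← Finset.sum_add_distrib]
    exact Finset.sum_congr rfl fun i _ => by ring
  rw [e, show dot (x : Fin n → ℝ) x = ‖x‖ ^ 2 from F.xx x, F.yy, F.xy] at h
  refine le_of_sub_nonneg (h.trans_eq ?_)
  simp only [a, b]; field_simp; ring

section

variable {J : ℝ → Matrix (Fin n) (Fin n) ℝ} {c : ℝ} (h : IsProfile J A B c)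

include h

theorem prof_le_one : c ≤ 1 := by
  obtain ⟨_, _, _, _, h1, _, hb⟩ := h
  have h0 := (hb 0).1
  rwa [(h1 0 le_rfl).1] at h0

theorem prof_pos (s : ℝ) : 0 < A s ∧ 0 < B s := by
  obtain ⟨_, _, _, _, _, hc, hb⟩ := h
  exact ⟨hc.trans_le (hb s).1, hc.trans_le (hb s).2.2.1⟩

theorem gOf_eq_ne {x : Euc n} (hx : x ≠ 0) :
    gOf J A B x = gM ⟨J (Real.log ‖x‖), h.2.2.1 _⟩ A B x := by
  ext i j
  simp only [gOf, gM, if_neg hx, rq_eq, kd, Frame.y]
  ring

theorem gOf_eventuallyEq {x : Euc n} (hx : x ≠ 0) :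
    gOf J A B =ᶠ[𝓝 x] gM ⟨J (Real.log ‖x‖), h.2.2.1 _⟩ A B := by
  have hc : Tendsto (fun y : Euc n => Real.log ‖y‖) (𝓝 x) (𝓝 (Real.log ‖x‖)) :=
    (continuous_norm.continuousAt (x := x)).log (norm_ne_zero_iff.2 hx)
  rcases h.2.2.2.1 (Real.log ‖x‖) with hJ | hAB
  · filter_upwards [hc.eventually hJ, isOpen_ne.mem_nhds hx] with y hy hy0
    rw [gOf_eq_ne h hy0]; simp only [hy]
  · filter_upwards [hc.eventually hAB, isOpen_ne.mem_nhds hx] with y hy hy0
    rw [gOf_eq_ne h hy0]; ext i j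
    simp only [gM, rq_eq, hy]; ring

theorem gOf_small {x : Euc n} (hx : ‖x‖ ≤ 1) : gOf J A B x = fun i j => kd i j := by
  ext i j
  by_cases h0 : x = 0
  · simp [gOf, h0, kd]
  obtain ⟨hA, hB⟩ := h.2.2.2.2.1 _ (Real.log_nonpos (norm_nonneg x) hx)
  simp only [gOf, if_neg h0, hA, hB, kd]; ring

theorem gOf_eventually_small {x : Euc n} (hx : ‖x‖ < 1) :
    gOf J A B =ᶠ[𝓝 x] fun _ i j => kd i j := by
  filter_upwards [(isOpen_lt continuous_norm continuous_const).mem_nhds hx] with y hy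
  exact gOf_small h (le_of_lt hy)

theorem gOf_contDiff (i j : Fin n) : ContDiff ℝ ∞ fun x => gOf J A B x i j := by
  refine contDiff_iff_contDiffAt.2 fun x => ?_
  by_cases hx : x = 0
  · exact (contDiffAt_const (c := kd i j)).congr_of_eventuallyEq
      ((gOf_eventually_small h (by simp [hx])).mono fun y hy => by
        show gOf J A B y i j = _; rw [hy])
  · exact (contDiffAt_gM _ h.1 h.2.1 i j hx).congr_of_eventuallyEq
      ((gOf_eventuallyEq h hx).mono fun y hy => by show gOf J A B y i j = _; rw [hy])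

theorem gOf_bounds (x : Euc n) (v : Fin n → ℝ) :
    c ^ 2 * dot v v ≤ ∑ i, ∑ j, v i * v j * gOf J A B x i j ∧
      ∑ i, ∑ j, v i * v j * gOf J A B x i j ≤ dot v v / c ^ 2 := by
  have hc : 0 < c := h.2.2.2.2.2.1
  have hc1 := prof_le_one h
  have hvv : 0 ≤ dot v v := Finset.sum_nonneg fun i _ => mul_self_nonneg _
  have hcc : c ^ 2 ≤ 1 := by nlinarith
  by_cases hx : x = 0
  · have e : ∑ i, ∑ j, v i * v j * gOf J A B x i j = dot v v := by
      simp [gOf, hx, dotProduct]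
    rw [e, le_div_iff₀ (pow_pos hc 2)]
    exact ⟨by nlinarith, by nlinarith⟩
  obtain ⟨a1, a2, b1, b2⟩ := h.2.2.2.2.2.2 (Real.log ‖x‖)
  rw [gOf_eq_ne h hx]
  simp only [gM]
  rw [form_shape]
  simp only [rq_eq, pow_zero, one_mul, pow_one]
  have hb := bessel ⟨J (Real.log ‖x‖), h.2.2.1 _⟩ hx v
  set X := dot (x : Fin n → ℝ) v ^ 2
  set Z := dot (Frame.y ⟨J (Real.log ‖x‖), h.2.2.1 _⟩ x) v ^ 2
  set e := (‖x‖ ^ 2)⁻¹
  set A' := A (Real.log ‖x‖)
  set B' := B (Real.log ‖x‖)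
  have he : 0 ≤ e := inv_nonneg.2 (sq_nonneg _)
  have hX : 0 ≤ e * X := mul_nonneg he (sq_nonneg _)
  have hZ : 0 ≤ e * Z := mul_nonneg he (sq_nonneg _)
  have hW : 0 ≤ dot v v - e * X - e * Z := by nlinarith
  have hA2 : c ^ 2 ≤ A' ^ 2 := pow_le_pow_left₀ hc.le a1 2
  have hB2 : c ^ 2 ≤ B' ^ 2 := pow_le_pow_left₀ hc.le b1 2
  have hA3 : A' ^ 2 ≤ 1 / c ^ 2 := by
    rw [← one_div_pow]; exact pow_le_pow_left₀ (hc.le.trans a1) a2 2
  have hB3 : B' ^ 2 ≤ 1 / c ^ 2 := by
    rw [← one_div_pow]; exact pow_le_pow_left₀ (hc.le.trans b1) b2 2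
  have h1c : 1 ≤ 1 / c ^ 2 := by rw [le_div_iff₀ (pow_pos hc 2)]; linarith
  rw [div_eq_mul_one_div (dot v v)]
  exact ⟨by nlinarith, by nlinarith⟩

theorem gOf_isMetric : IsMetric (gOf J A B) := by
  refine ⟨gOf_contDiff h, fun x => Matrix.PosDef.of_dotProduct_mulVec_pos ?_ fun v hv => ?_⟩
  · ext i j
    simp only [Matrix.conjTranspose_apply, star_trivial, gOf]
    by_cases hij : i = j
    · rw [hij]
    · simp only [if_neg hij, if_neg (Ne.symm hij)]
      split_ifs <;> ring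
  · refine lt_of_lt_of_le ?_ ((gOf_bounds h x v).1.trans_eq ?_)
    · refine mul_pos (pow_pos h.2.2.2.2.2.1 2) (lt_of_le_of_ne
        (Finset.sum_nonneg fun i _ => mul_self_nonneg _) fun h0 => hv ?_)
      exact dotProduct_self_eq_zero.1 h0.symm
    · simp only [dotProduct, Matrix.mulVec, star_trivial, Finset.mul_sum]
      exact Finset.sum_congr rfl fun i _ => Finset.sum_congr rfl fun j _ => by ring

end

end

end Vale.Agent.P225.Geo
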