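import Vale.Agent.P225.Geom.Christoffel

/-!
# P225, geometry: homogeneous polynomials as functions
-/

namespace Vale.Agent.P225.Geo

open scoped ContDiff Topology
open MvPolynomial

noncomputable section

variable {n : ℕ}

/-- The value of a polynomial at a point. -/
def ev (x : Euc n) (P : Poly n) : ℝ := eval (fun i => x i) P

/-- The gradient of a polynomial at a point. -/
def grad (x : Euc n) (P : Poly n) (i : Fin n) : ℝ := ev x (pderiv i P)

/-- The Hessian of a polynomial at a point. -/
def hess (x : Euc n) (P : Poly n) (i j : Fin n) : ℝ := ev x (pderiv i (pderiv j P))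

theorem hasPd_ev (P : Poly n) (x : Euc n) : HasPd (fun y => ev y P) (grad x P) x := by
  induction P using MvPolynomial.induction_on with
  | C a =>
    have h := (HasPd.const (x := x) a).congr (b := grad x (C a)) fun i => by simp [ev, grad]
    simpa [ev] using h
  | add p q hp hq =>
    have h := (hp.add hq).congr (b := grad x (p + q)) fun i => by simp [ev, grad]
    simpa [ev] using h
  | mul_X p j hp =>
    have h := (hp.mul (HasPd.coord j)).congr (b := grad x (p * X j)) fun i => by
      simp only [grad, ev, pderiv_mul, map_add, map_mul, eval_X, pderiv_X, kd]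
      rcases eq_or_ne j i with rfl | hne
      · simp
      · simp [hne]
    simpa [ev] using h

theorem contDiff_ev (P : Poly n) : ContDiff ℝ ∞ fun y : Euc n => ev y P := by
  induction P using MvPolynomial.induction_on with
  | C a => simpa [ev] using contDiff_const
  | add p q hp hq => simpa [ev] using hp.add hq
  | mul_X p j hp => simpa [ev] using hp.mul (contDiff_coord j)

theorem euler {l : ℕ} {P : Poly n} (h : P.IsHomogeneous l) (x : Euc n) :
    ∑ i, x i * grad x P i = (l : ℝ) * ev x P := by
  simpa [ev, grad] using congrArg (eval fun i => x i) h.sum_X_mul_pderiv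

theorem euler_hess {l : ℕ} {P : Poly n} (h : P.IsHomogeneous l) (x : Euc n) :
    ∑ i, ∑ j, x i * x j * hess x P i j = (l : ℝ) * ((l : ℝ) - 1) * ev x P := by
  have hj : ∀ i, ∑ j, x j * hess x P i j = ((l : ℝ) - 1) * grad x P i := fun i => by
    have h1 := congrArg (fun q => eval (fun j => x j) (pderiv i q)) h.sum_X_mul_pderiv
    simp only [map_sum, pderiv_mul, map_add, map_mul, eval_X, Finset.sum_add_distrib,
      nsmul_eq_mul, Derivation.map_natCast, map_natCast, zero_mul, map_zero, zero_add] at h1
    have h2 : ∑ j, eval (fun j => x j) (pderiv i (X j : Poly n)) * grad x P j = grad x P i := by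
      simp [pderiv_X, Pi.single_apply, apply_ite]
    simp only [grad, ev] at h2
    rw [h2] at h1
    simp only [hess, grad, ev]
    linarith
  calc _ = ∑ i, x i * ∑ j, x j * hess x P i j := Finset.sum_congr rfl fun i _ => by
        rw [Finset.mul_sum]; exact Finset.sum_congr rfl fun j _ => by ring
    _ = ((l : ℝ) - 1) * ∑ i, x i * grad x P i := by
        rw [Finset.mul_sum]; exact Finset.sum_congr rfl fun i _ => by rw [hj]; ring
    _ = _ := by rw [euler h]; ring

theorem hess_trace {l : ℕ} {P : Poly n} (h : IsHarm l P) (x : Euc n) : ∑ i, hess x P i i = 0 := by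
  simpa [polyLap, ev, hess] using congrArg (eval fun i => x i) h.2

theorem ev_xi (F : Frame n) (x : Euc n) (P : Poly n) :
    ev x (xi F.J P) = ∑ i, F.y x i * grad x P i := by
  simp [ev, xi, grad, Frame.y, jvec]

theorem grad_xi (F : Frame n) (x : Euc n) (P : Poly n) (m : Fin n) :
    grad x (xi F.J P) m = ∑ i, (F.J i m * grad x P i + F.y x i * hess x P m i) := by
  simp only [grad, hess, ev, xi, map_sum, pderiv_mul, map_add, map_mul, eval_C, eval_X, pderiv_C,
    pderiv_X, zero_mul, zero_add, map_zero]
  refine Finset.sum_congr rfl fun i _ => ?_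
  simp [Frame.y, jvec, Pi.single_apply, apply_ite]

theorem ev_xi_xi (F : Frame n) {l : ℕ} {P : Poly n} (h : P.IsHomogeneous l) (x : Euc n) :
    ev x (xi F.J (xi F.J P)) =
      (∑ i, ∑ j, F.y x i * F.y x j * hess x P i j) - (l : ℝ) * ev x P := by
  rw [ev_xi]
  simp only [grad_xi, Finset.mul_sum, mul_add, Finset.sum_add_distrib]
  have h1 : ∑ m, ∑ i, F.y x m * (F.J i m * grad x P i) = -((l : ℝ) * ev x P) := by
    rw [Finset.sum_comm, ← euler h, ← Finset.sum_neg_distrib]
    refine Finset.sum_congr rfl fun i _ => ?_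
    rw [show ∑ m, F.y x m * (F.J i m * grad x P i) = (∑ m, F.J i m * F.y x m) * grad x P i by
      rw [Finset.sum_mul]; exact Finset.sum_congr rfl fun m _ => by ring, F.J_y]
    ring
  rw [h1]
  simp only [← mul_assoc]
  ring

theorem xi_sum_smul {d : ℕ} (J : Matrix (Fin n) (Fin n) ℝ) (c : Fin d → ℝ) (b : Fin d → Poly n) :
    xi J (∑ a, c a • b a) = ∑ a, c a • xi J (b a) := by
  simp only [xi, map_sum, Derivation.map_smul, Finset.mul_sum, mul_smul_comm, Finset.smul_sum]
  exact Finset.sum_comm

theorem abs_ev_le {l : ℕ} {P : Poly n} (h : P.IsHomogeneous l) (x : Euc n) :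
    |ev x P| ≤ (∑ d ∈ P.support, |P.coeff d|) * ‖x‖ ^ l := by
  have hc : ∀ i, |x i| ≤ ‖x‖ := fun i => by
    simpa [Real.norm_eq_abs] using PiLp.norm_apply_le x i
  rw [ev, eval_eq', Finset.sum_mul]
  refine (Finset.abs_sum_le_sum_abs _ _).trans (Finset.sum_le_sum fun d hd => ?_)
  rw [abs_mul, Finset.abs_prod]
  refine mul_le_mul_of_nonneg_left ?_ (abs_nonneg _)
  have hdeg : ∑ i, d i = l := by
    have := h (mem_support_iff.1 hd)
    simpa [Finsupp.weight_apply, Finsupp.sum_fintype] using this
  rw [← hdeg, ← Finset.prod_pow_eq_pow_sum]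
  exact Finset.prod_le_prod (fun i _ => abs_nonneg _) fun i _ => by
    rw [abs_pow]; exact pow_le_pow_left₀ (abs_nonneg _) (hc i) _

end

end Vale.Agent.P225.Geo
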