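import Vale.Agent.P225.Interfaces

/-!
# P225, geometry: first derivatives of radial functions and contractions
-/

namespace Vale.Agent.P225.Geo

open scoped ContDiff Topology

noncomputable section

variable {n : ℕ}

/-- Kronecker delta. -/
def kd (i j : Fin n) : ℝ := if i = j then 1 else 0

/-- The dot product. -/
abbrev dot (u v : Fin n → ℝ) : ℝ := dotProduct u v

/-- `f` is differentiable at `x` with coordinate derivatives `g`. -/
def HasPd (f : Euc n → ℝ) (g : Fin n → ℝ) (x : Euc n) : Prop :=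
  DifferentiableAt ℝ f x ∧ ∀ i, pd f i x = g i

namespace HasPd

variable {f h : Euc n → ℝ} {a b : Fin n → ℝ} {x : Euc n}

theorem congr (H : HasPd f a x) (hab : ∀ i, a i = b i) : HasPd f b x :=
  ⟨H.1, fun i => (H.2 i).trans (hab i)⟩

theorem congr_nhds (H : HasPd f a x) (e : h =ᶠ[𝓝 x] f) : HasPd h a x :=
  ⟨H.1.congr_of_eventuallyEq e, fun i => by rw [pd, e.fderiv_eq]; exact H.2 i⟩

theorem const (c : ℝ) : HasPd (fun _ => c) (fun _ => 0) x :=
  ⟨differentiableAt_const c, fun i => by simp [pd]⟩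

theorem add (hf : HasPd f a x) (hh : HasPd h b x) :
    HasPd (fun y => f y + h y) (fun i => a i + b i) x :=
  ⟨hf.1.add hh.1, fun i => by
    show _ = a i + b i
    rw [← hf.2 i, ← hh.2 i]; simp [pd, fderiv_fun_add hf.1 hh.1]⟩

theorem mul (hf : HasPd f a x) (hh : HasPd h b x) :
    HasPd (fun y => f y * h y) (fun i => a i * h x + f x * b i) x :=
  ⟨hf.1.mul hh.1, fun i => by
    show _ = a i * h x + f x * b i
    rw [← hf.2 i, ← hh.2 i]; simp [pd, fderiv_fun_mul hf.1 hh.1]; ring⟩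

theorem const_mul (c : ℝ) (hf : HasPd f a x) : HasPd (fun y => c * f y) (fun i => c * a i) x :=
  ((const c).mul hf).congr fun i => by ring

theorem sum {ι : Type*} (s : Finset ι) {F : ι → Euc n → ℝ} {G : ι → Fin n → ℝ}
    (H : ∀ k ∈ s, HasPd (F k) (G k) x) :
    HasPd (fun y => ∑ k ∈ s, F k y) (fun i => ∑ k ∈ s, G k i) x :=
  ⟨DifferentiableAt.fun_sum fun k hk => (H k hk).1, fun i => by
    simp only [pd, fderiv_fun_sum fun k hk => (H k hk).1]
    rw [ContinuousLinearMap.sum_apply]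
    exact Finset.sum_congr rfl fun k hk => (H k hk).2 i⟩

theorem coord (j : Fin n) : HasPd (fun y => y j) (fun i => kd j i) x := by
  have h : HasFDerivAt (fun y : Euc n => y j)
      (EuclideanSpace.proj j : Euc n →L[ℝ] ℝ) x :=
    (EuclideanSpace.proj j : Euc n →L[ℝ] ℝ).hasFDerivAt
  refine ⟨h.differentiableAt, fun i => ?_⟩
  rw [pd, h.fderiv]
  simp [kd, PiLp.single_apply]

theorem jvec (J : Matrix (Fin n) (Fin n) ℝ) (j : Fin n) :
    HasPd (fun y => Vale.Agent.P225.jvec J y j) (fun i => J j i) x :=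
  (sum Finset.univ fun k _ => (coord (x := x) k).const_mul (J j k)).congr fun i => by simp [kd]

end HasPd

/-- `φ(log r) / r^(2k)`. -/
def rq (k : ℕ) (φ : ℝ → ℝ) (x : Euc n) : ℝ := ((‖x‖ ^ 2)⁻¹) ^ k * φ (Real.log ‖x‖)

theorem HasPd.rq {φ : ℝ → ℝ} {φ' : ℝ} {x : Euc n} (hx : x ≠ 0) (k : ℕ)
    (hφ : HasDerivAt φ φ' (Real.log ‖x‖)) :
    HasPd (rq k φ) (fun i => ((‖x‖ ^ 2)⁻¹) ^ (k + 1) *
      (φ' - 2 * k * φ (Real.log ‖x‖)) * x i) x := by
  have hr : (0 : ℝ) < ‖x‖ ^ 2 := pow_pos (norm_pos_iff.2 hx) 2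
  have h2 : HasFDerivAt (fun y : Euc n => ‖y‖ ^ 2) (2 • (innerSL ℝ) x) x :=
    (hasStrictFDerivAt_norm_sq x).hasFDerivAt
  have hl : HasFDerivAt (fun y : Euc n => Real.log ‖y‖)
      ((1 / 2 : ℝ) • ((‖x‖ ^ 2)⁻¹ • (2 • (innerSL ℝ) x))) x := by
    refine ((h2.log hr.ne').const_mul (1 / 2 : ℝ)).congr_of_eventuallyEq
      (Filter.Eventually.of_forall fun y => ?_)
    show Real.log ‖y‖ = 1 / 2 * Real.log (‖y‖ ^ 2)
    rw [Real.log_pow]; push_cast; ring
  have hinv := (hasDerivAt_inv hr.ne').comp_hasFDerivAt x h2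
  have h := ((hinv.pow k).mul (hφ.comp_hasFDerivAt x hl))
  refine ⟨h.differentiableAt, fun i => ?_⟩
  have he : (innerSL ℝ) x (EuclideanSpace.single i 1) = x i := by
    simp [EuclideanSpace.inner_single_right]
  unfold pd
  rw [show Geo.rq k φ = ((fun y : Euc n => ((fun t => t⁻¹) ∘ fun y => ‖y‖ ^ 2) y ^ k) *
    (φ ∘ fun y => Real.log ‖y‖)) from rfl, h.fderiv]
  simp only [add_apply, smul_apply, he, smul_eq_mul, nsmul_eq_mul, Function.comp_apply,
    Nat.cast_ofNat]
  rcases k with _ | k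
  · simp; ring
  · simp only [add_tsub_cancel_right, inv_pow]
    field_simp
    push_cast
    ring

/-- A fixed orthogonal complex structure at a point. -/
structure Frame (n : ℕ) where
  J : Matrix (Fin n) (Fin n) ℝ
  hJ : IsCx J

namespace Frame

variable (F : Frame n)

theorem anti (i j : Fin n) : F.J j i = -F.J i j := by
  have := congrFun (congrFun F.hJ.1 i) j
  simpa using this

theorem J_J (i j : Fin n) : ∑ k, F.J i k * F.J k j = -kd i j := by
  have := congrFun (congrFun F.hJ.2 i) j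
  simpa [Matrix.mul_apply, Matrix.one_apply, kd] using this

theorem tr : ∑ i, F.J i i = 0 :=
  Finset.sum_eq_zero fun i _ => by linarith [F.anti i i]

/-- `J x`. -/
def y (x : Euc n) (i : Fin n) : ℝ := jvec F.J x i

theorem J_y (x : Euc n) (i : Fin n) : ∑ j, F.J i j * F.y x j = -x i := by
  simp only [y, jvec, Finset.mul_sum, ← mul_assoc]
  rw [Finset.sum_comm]
  simp [← Finset.sum_mul, F.J_J, kd]

theorem yJ (x : Euc n) (i : Fin n) : ∑ j, F.y x j * F.J j i = x i := by
  simp only [fun j => F.anti i j, mul_neg, Finset.sum_neg_distrib]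
  rw [← neg_neg (x i), ← F.J_y x i]
  exact congrArg Neg.neg (Finset.sum_congr rfl fun j _ => mul_comm _ _)

theorem xJ (x : Euc n) (i : Fin n) : ∑ j, x j * F.J j i = -F.y x i := by
  simp only [fun j => F.anti i j, mul_neg, Finset.sum_neg_distrib, y, jvec]
  exact congrArg Neg.neg (Finset.sum_congr rfl fun j _ => mul_comm _ _)

theorem xy (x : Euc n) : dot x (F.y x) = 0 := by
  have h : dot x (F.y x) = -dot x (F.y x) := by
    conv_lhs => simp only [dot, dotProduct, y, jvec, Finset.mul_sum]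
    rw [Finset.sum_comm]
    simp only [← mul_assoc, ← Finset.sum_mul, F.xJ, neg_mul, Finset.sum_neg_distrib]
    exact congrArg Neg.neg (Finset.sum_congr rfl fun j _ => mul_comm _ _)
  linarith

include F in
theorem xx (x : Euc n) : dot x x = ‖x‖ ^ 2 := by
  rw [EuclideanSpace.norm_sq_eq]
  simp [dot, dotProduct, sq]

theorem yy (x : Euc n) : dot (F.y x) (F.y x) = ‖x‖ ^ 2 := by
  rw [← F.xx]
  simp only [dot, dotProduct]
  calc ∑ k, F.y x k * F.y x k = ∑ k, ∑ j, F.y x k * (F.J k j * x j) := by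
        simp only [← Finset.mul_sum]; rfl
    _ = ∑ j, (∑ k, F.y x k * F.J k j) * x j := by
        rw [Finset.sum_comm]; simp only [Finset.sum_mul, mul_assoc]
    _ = _ := by simp only [F.yJ]

end Frame

end

end Vale.Agent.P225.Geo
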