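import Vale.Agent.P225.Geom.Christoffel

/-!
# P225, geometry: the Ricci tensor of the local model
-/

namespace Vale.Agent.P225.Geo

open scoped ContDiff Topology Matrix
open Filter Matrix

noncomputable section

variable {n : ℕ}

/-- `a + b J + ∑ u ⊗ w`. -/
def opMat (F : Frame n) (a b : ℝ) (U W : Fin 4 → Fin n → ℝ) : Matrix (Fin n) (Fin n) ℝ :=
  a • 1 + b • F.J + ∑ r, vecMulVec (U r) (W r)

theorem trace_mul_opMat (F : Frame n) (a b a' b' : ℝ) (U W U' W' : Fin 4 → Fin n → ℝ) :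
    (opMat F a b U W * opMat F a' b' U' W').trace =
      (n : ℝ) * a * a' - (n : ℝ) * b * b' +
        ∑ r, (a' * (U r ⬝ᵥ W r) + b' * ((F.J *ᵥ U r) ⬝ᵥ W r)) +
        ∑ r, (a * (U' r ⬝ᵥ W' r) + b * ((F.J *ᵥ U' r) ⬝ᵥ W' r)) +
        ∑ r, ∑ t, (W r ⬝ᵥ U' t) * (U r ⬝ᵥ W' t) := by
  have hJJ : F.J * F.J = -1 := F.hJ.2
  have htr : F.J.trace = 0 := F.tr
  have h1 : ∀ u w : Fin n → ℝ, (F.J * vecMulVec u w).trace = (F.J *ᵥ u) ⬝ᵥ w := fun u w => by
    rw [mul_vecMulVec, trace_vecMulVec]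
  have h2 : ∀ u w : Fin n → ℝ, (vecMulVec u w * F.J).trace = (F.J *ᵥ u) ⬝ᵥ w := fun u w => by
    rw [Matrix.trace_mul_comm, h1]
  have h3 : ∀ u w u' w' : Fin n → ℝ,
      (vecMulVec u w * vecMulVec u' w').trace = (w ⬝ᵥ u') * (u ⬝ᵥ w') := fun u w u' w' => by
    rw [vecMulVec_mul_vecMulVec, trace_vecMulVec, dotProduct_smul]; rfl
  simp only [opMat, add_mul, mul_add, Matrix.smul_mul, Matrix.mul_smul, one_mul, mul_one,
    Finset.sum_mul, Finset.mul_sum, trace_add, trace_smul, trace_sum, trace_one, trace_neg, hJJ,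
    htr, h1, h2, h3, trace_vecMulVec, smul_eq_mul, Fintype.card_fin, Finset.sum_add_distrib,
    Finset.smul_sum]
  rw [Finset.sum_comm (f := fun t r => (W r ⬝ᵥ U' t) * (U r ⬝ᵥ W' t))]
  ring

variable (F : Frame n) (P : Prof)

/-- Column vectors of the rank-one parts of `Γ^k_jl`. -/
def uVec (x : Euc n) (j : Fin n) : Fin 4 → Fin n → ℝ :=
  ![(x : Fin n → ℝ), F.y x, fun k => kd k j, fun k => F.J k j]

/-- Row vectors of the rank-one parts of `Γ^k_jl`. -/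
def wVec (x : Euc n) (j : Fin n) : Fin 4 → Fin n → ℝ :=
  let e := (‖x‖ ^ 2)⁻¹
  let s := Real.log ‖x‖
  ![(e * P.c2 s) • (fun k => kd k j) + (e ^ 2 * P.c3 s * x j) • (x : Fin n → ℝ) +
      (e ^ 2 * P.c4 s * F.y x j) • F.y x,
    (e ^ 2 * P.c5 s * x j) • F.y x + (e ^ 2 * P.c5 s * F.y x j) • (x : Fin n → ℝ),
    (e * P.c1 s) • (x : Fin n → ℝ),
    (e * P.c6 s) • F.y x]

theorem chr_opMat (x : Euc n) (j k l : Fin n) :
    chr F P x k j l = opMat F ((‖x‖ ^ 2)⁻¹ * P.c1 (Real.log ‖x‖) * x j)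
      ((‖x‖ ^ 2)⁻¹ * P.c6 (Real.log ‖x‖) * F.y x j) (uVec F x j) (wVec F P x j) k l := by
  simp only [opMat, Matrix.add_apply, Matrix.smul_apply, Matrix.sum_apply, vecMulVec_apply,
    Fin.sum_univ_four, uVec, wVec, Matrix.one_apply, smul_eq_mul]
  simp only [cons_val_zero, cons_val_one, cons_val, Pi.add_apply, Pi.smul_apply, smul_eq_mul]
  simp only [chr, rq_eq, pow_one]
  rw [show (if k = l then (1 : ℝ) else 0) = kd l k by rw [kd_comm]; rfl, kd_comm j k, kd_comm j l]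
  ring

/-- Coefficient of `δ_ij / r²`. -/
def alpha (n : ℕ) (s : ℝ) : ℝ :=
  2 * P.c1 s + deriv P.c2 s + ((n : ℝ) - 2) * P.c2 s - 2 * P.c6 s - P.fT n s +
    P.fT n s * P.c2 s - 2 * P.c1 s * P.c2 s

/-- The trace of products, coefficient of `x_i x_j / r⁴`. -/
def qX (n : ℕ) (s : ℝ) : ℝ :=
  (n : ℝ) * P.c1 s ^ 2 + 2 * P.c1 s * (P.c1 s + P.c2 s + P.c3 s + P.c5 s + P.c6 s) + P.c1 s ^ 2
    + 2 * P.c1 s * P.c3 s + P.c2 s ^ 2 + 2 * P.c2 s * P.c3 s + P.c3 s ^ 2 + P.c5 s ^ 2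
    + 2 * P.c5 s * P.c6 s + P.c6 s ^ 2

/-- The trace of products, coefficient of `y_i y_j / r⁴`. -/
def qY (n : ℕ) (s : ℝ) : ℝ :=
  -(n : ℝ) * P.c6 s ^ 2 + 2 * P.c6 s * (-P.c1 s + P.c2 s + P.c4 s - P.c5 s - P.c6 s)
    + 2 * P.c1 s * P.c4 s - 2 * P.c1 s * P.c6 s + 2 * P.c2 s * P.c5 s + 2 * P.c4 s * P.c5 s
    - 2 * P.c5 s * P.c6 s

/-- Coefficient of `x_i x_j / r⁴`. -/
def beta (n : ℕ) (s : ℝ) : ℝ :=
  2 * deriv P.c1 s - 4 * P.c1 s + deriv P.c3 s + ((n : ℝ) - 2) * P.c3 s - 2 * P.c5 s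
    - (deriv (P.fT n) s - 2 * P.fT n s) + P.fT n s * (2 * P.c1 s + P.c3 s) - qX P n s

/-- Coefficient of `y_i y_j / r⁴`. -/
def gamma (n : ℕ) (s : ℝ) : ℝ :=
  deriv P.c4 s + ((n : ℝ) - 2) * P.c4 s + 2 * P.c5 s - 2 * deriv P.c6 s + 4 * P.c6 s
    + P.fT n s * (P.c4 s - 2 * P.c6 s) - qY P n s

theorem chr_prod {x : Euc n} (hx : x ≠ 0) (i j : Fin n) :
    ∑ k, ∑ l, chr F P x k j l * chr F P x l i k =
      (‖x‖ ^ 2)⁻¹ * (2 * P.c1 (Real.log ‖x‖) * P.c2 (Real.log ‖x‖)) * kd i j +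
        (‖x‖ ^ 2)⁻¹ ^ 2 * qX P n (Real.log ‖x‖) * (x i * x j) +
        (‖x‖ ^ 2)⁻¹ ^ 2 * qY P n (Real.log ‖x‖) * (F.y x i * F.y x j) := by
  have hn : ‖x‖ ≠ 0 := norm_ne_zero_iff.2 hx
  have hsum : ∀ M M' : Matrix (Fin n) (Fin n) ℝ, ∑ k, ∑ l, M k l * M' l k = (M * M').trace :=
    fun M M' => rfl
  simp only [chr_opMat]
  rw [hsum, trace_mul_opMat]
  have Jx : F.J *ᵥ (x : Fin n → ℝ) = F.y x := rfl
  have Jy : F.J *ᵥ F.y x = -(x : Fin n → ℝ) := funext fun m => F.J_y x m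
  have Jd : ∀ m, F.J *ᵥ (fun k => kd k m) = fun k => F.J k m := fun m => by
    funext a; simp [Matrix.mulVec, dotProduct, kd]
  have JC : ∀ m, F.J *ᵥ (fun k => F.J k m) = -(fun k => kd k m) := fun m => by
    funext a; exact F.J_J a m
  have xx : (x : Fin n → ℝ) ⬝ᵥ (x : Fin n → ℝ) = ‖x‖ ^ 2 := F.xx x
  have yy : F.y x ⬝ᵥ F.y x = ‖x‖ ^ 2 := F.yy x
  have xy : (x : Fin n → ℝ) ⬝ᵥ F.y x = 0 := F.xy x
  have yx : F.y x ⬝ᵥ (x : Fin n → ℝ) = 0 := by rw [dotProduct_comm]; exact F.xy x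
  have vd : ∀ (v : Fin n → ℝ) m, v ⬝ᵥ (fun k => kd k m) = v m := fun v m => by
    simp [dotProduct, kd]
  have dv : ∀ (v : Fin n → ℝ) m, (fun k => kd k m) ⬝ᵥ v = v m := fun v m => by
    rw [dotProduct_comm, vd]
  have xC : ∀ m, (x : Fin n → ℝ) ⬝ᵥ (fun k => F.J k m) = -F.y x m := F.xJ x
  have Cx : ∀ m, (fun k => F.J k m) ⬝ᵥ (x : Fin n → ℝ) = -F.y x m := fun m => by
    rw [dotProduct_comm, xC]
  have yC : ∀ m, F.y x ⬝ᵥ (fun k => F.J k m) = x m := F.yJ x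
  have Cy : ∀ m, (fun k => F.J k m) ⬝ᵥ F.y x = x m := fun m => by rw [dotProduct_comm, yC]
  have Jdiag : ∀ m, F.J m m = 0 := fun m => by linarith [F.anti m m]
  simp only [Fin.sum_univ_four, uVec, wVec, cons_val_zero, cons_val_one, cons_val, dotProduct_add,
    add_dotProduct, dotProduct_smul, smul_dotProduct, dotProduct_neg, neg_dotProduct,
    Jx, Jy, Jd, JC, xx, yy, xy, yx, xC, Cx, yC, Cy, smul_eq_mul, vd, dv, Pi.add_apply, Pi.smul_apply, Pi.neg_apply, Jdiag]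
  simp only [kd_comm j i, F.anti i j, show kd i i = 1 from if_pos rfl,
    show kd j j = 1 from if_pos rfl, qX, qY]
  field_simp
  ring

theorem chr_div {x : Euc n} (hx : x ≠ 0) (i j : Fin n) :
    ∑ k, pd (fun y => chr F P y k i j) k x =
      (‖x‖ ^ 2)⁻¹ * (2 * P.c1 (Real.log ‖x‖) + deriv P.c2 (Real.log ‖x‖)
          + ((n : ℝ) - 2) * P.c2 (Real.log ‖x‖) - 2 * P.c6 (Real.log ‖x‖)) * kd i j +
      (‖x‖ ^ 2)⁻¹ ^ 2 * (2 * deriv P.c1 (Real.log ‖x‖) - 4 * P.c1 (Real.log ‖x‖)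
          + deriv P.c3 (Real.log ‖x‖) + ((n : ℝ) - 2) * P.c3 (Real.log ‖x‖)
          - 2 * P.c5 (Real.log ‖x‖)) * (x i * x j) +
      (‖x‖ ^ 2)⁻¹ ^ 2 * (deriv P.c4 (Real.log ‖x‖) + ((n : ℝ) - 2) * P.c4 (Real.log ‖x‖)
          + 2 * P.c5 (Real.log ‖x‖) - 2 * deriv P.c6 (Real.log ‖x‖)
          + 4 * P.c6 (Real.log ‖x‖)) * (F.y x i * F.y x j) := by
  have hn : ‖x‖ ≠ 0 := norm_ne_zero_iff.2 hx
  set s := Real.log ‖x‖
  set e := (‖x‖ ^ 2)⁻¹ with he
  have key : ∀ k, pd (fun y => chr F P y k i j) k x =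
      e ^ 2 * (deriv P.c1 s - 2 * P.c1 s) * (x i * (x k * kd j k) + x j * (x k * kd i k)) +
      e * P.c1 s * (kd i k * kd j k + kd j k * kd i k) +
      e ^ 2 * (deriv P.c2 s - 2 * P.c2 s) * kd i j * (x k * x k) +
      e * P.c2 s * kd i j * kd k k +
      e ^ 3 * (deriv P.c3 s - 4 * P.c3 s) * x i * x j * (x k * x k) +
      e ^ 2 * P.c3 s * (x j * (x k * kd i k) + x i * (x k * kd j k) + x i * x j * kd k k) +
      e ^ 3 * (deriv P.c4 s - 4 * P.c4 s) * F.y x i * F.y x j * (x k * x k) +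
      e ^ 2 * P.c4 s * (F.y x j * (F.J i k * x k) + F.y x i * (F.J j k * x k)
          + F.y x i * F.y x j * kd k k) +
      e ^ 3 * (deriv P.c5 s - 4 * P.c5 s) * (x i * F.y x j + x j * F.y x i) * (F.y x k * x k) +
      e ^ 2 * P.c5 s * (F.y x j * (F.y x k * kd i k) + x i * (F.J j k * F.y x k)
          + F.y x i * (F.y x k * kd j k) + x j * (F.J i k * F.y x k)
          + (x i * F.y x j + x j * F.y x i) * F.J k k) +
      e ^ 2 * (deriv P.c6 s - 2 * P.c6 s) * (F.y x j * (x k * F.J k i) + F.y x i * (x k * F.J k j)) +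
      e * P.c6 s * (F.J j k * F.J k i + F.J i k * F.J k j) := fun k => by
    have r := fun (m : ℕ) (c : ℝ → ℝ) (h : Differentiable ℝ c) =>
      HasPd.rq hx m (φ := c) ((h s).hasDerivAt)
    have y := fun m : Fin n => (HasPd.jvec (x := x) F.J m)
    have z := fun m : Fin n => (HasPd.coord (x := x) m)
    have h := ((((((r 1 _ P.diff_c1).mul (((z i).mul (HasPd.const (kd j k))).add
        ((z j).mul (HasPd.const (kd i k))))).add
      ((r 1 _ P.diff_c2).mul ((HasPd.const (kd i j)).mul (z k)))).add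
      ((r 2 _ P.diff_c3).mul (((z i).mul (z j)).mul (z k)))).add
      ((r 2 _ P.diff_c4).mul (((y i).mul (y j)).mul (z k)))).add
      ((r 2 _ P.diff_c5).mul ((((z i).mul (y j)).add ((z j).mul (y i))).mul (y k)))).add
      ((r 1 _ P.diff_c6).mul (((y j).mul (HasPd.const (F.J k i))).add
        ((y i).mul (HasPd.const (F.J k j)))))
    refine (h.2 k).trans ?_
    simp only [rq_eq, Frame.y, e, s]
    push_cast
    ring
  have h1 : ∑ k : Fin n, kd k k = (n : ℝ) := by simp [kd]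
  have h2 : ∀ v : Fin n → ℝ, ∀ m, ∑ k, v k * kd m k = v m := fun v m => by simp [kd]
  have h4 : ∑ k, x k * x k = ‖x‖ ^ 2 := F.xx x
  have h5 : ∑ k, F.y x k * x k = 0 := by
    have := F.xy x; rw [dot, dotProduct_comm] at this; exact this
  have h6 : ∀ m, ∑ k, F.J m k * x k = F.y x m := fun m => rfl
  have h7 : ∀ m, ∑ k, F.J m k * F.y x k = -x m := F.J_y x
  have h8 : ∀ m, ∑ k, x k * F.J k m = -F.y x m := F.xJ x
  simp only [key, Finset.sum_add_distrib, ← Finset.mul_sum, h1, h2, h4, h5, h6, h7, h8, F.J_J,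
    F.tr]
  rw [kd_comm j i]
  simp only [e]
  field_simp
  ring

theorem ricci_gM {x : Euc n} (hx : x ≠ 0) (i j : Fin n) :
    ricci (gM F P.A P.B) x i j =
      (‖x‖ ^ 2)⁻¹ * alpha P n (Real.log ‖x‖) * kd i j +
        (‖x‖ ^ 2)⁻¹ ^ 2 * beta P n (Real.log ‖x‖) * (x i * x j) +
        (‖x‖ ^ 2)⁻¹ ^ 2 * gamma P n (Real.log ‖x‖) * (F.y x i * F.y x j) := by
  have hn : ‖x‖ ≠ 0 := norm_ne_zero_iff.2 hx
  set g := gM F P.A P.B with hg
  set e := (‖x‖ ^ 2)⁻¹ with he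
  set s := Real.log ‖x‖ with hs
  have A1 : ∀ k, pd (fun y => christoffel g y k i j) k x = pd (fun y => chr F P y k i j) k x :=
    fun k => by rw [pd, (christoffel_eventuallyEq F P hx k i j).fderiv_eq]; rfl
  have A2 : ∑ k, pd (fun y => christoffel g y k i k) j x =
      e ^ 2 * (deriv (P.fT n) s - 2 * P.fT n s) * (x i * x j) + e * P.fT n s * kd i j := by
    have hd : ∀ k, DifferentiableAt ℝ (fun y => christoffel g y k i k) x := fun k => by
      refine DifferentiableAt.congr_of_eventuallyEq ?_ (christoffel_eventuallyEq F P hx k i k)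
      have r := fun (m : ℕ) (c : ℝ → ℝ) (h : Differentiable ℝ c) =>
        (HasPd.rq hx m (φ := c) ((h s).hasDerivAt)).1
      have z := fun m : Fin n => (HasPd.coord (x := x) m).1
      have y := fun m : Fin n => (HasPd.jvec (x := x) F.J m).1
      have := r 1 _ P.diff_c1; have := r 1 _ P.diff_c2; have := r 2 _ P.diff_c3
      have := r 2 _ P.diff_c4; have := r 2 _ P.diff_c5; have := r 1 _ P.diff_c6
      have := z i; have := z k; have := y i; have := y k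
      unfold chr
      simp only [Frame.y]
      fun_prop
    have hev : (fun y => ∑ k, christoffel g y k i k) =ᶠ[𝓝 x]
        fun y => rq 1 (P.fT n) y * y i := by
      filter_upwards [isOpen_ne.mem_nhds hx] with y hy
      simp only [g, christoffel_gM F P hy]
      exact chr_trace F P hy i
    have hp := ((HasPd.rq hx 1 ((P.diff_fT n) s).hasDerivAt).mul (HasPd.coord i)).congr_nhds hev
    have hsum : ∑ k, pd (fun y => christoffel g y k i k) j x =
        pd (fun y => ∑ k, christoffel g y k i k) j x := by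
      simp only [pd]
      rw [fderiv_fun_sum fun k _ => hd k, ContinuousLinearMap.sum_apply]
    rw [hsum, hp.2 j]
    simp only [rq_eq, e, s]
    push_cast
    ring
  have A3 : ∀ k l : Fin n, christoffel g x k k l * christoffel g x l i j -
      christoffel g x k j l * christoffel g x l i k =
      chr F P x k l k * chr F P x l i j - chr F P x k j l * chr F P x l i k := fun k l => by
    simp only [g, christoffel_gM F P hx]; rw [chr_symm F P x k k l]
  have A4 : ∑ l, x l * chr F P x l i j = e * (2 * P.c1 s + P.c3 s) * (x i * x j)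
      + e * (P.c4 s - 2 * P.c6 s) * (F.y x i * F.y x j) + P.c2 s * kd i j := by
    have key : ∀ l, x l * chr F P x l i j =
        e * P.c1 s * x i * (x l * kd j l) + e * P.c1 s * x j * (x l * kd i l) +
        e * P.c2 s * kd i j * (x l * x l) + e ^ 2 * P.c3 s * x i * x j * (x l * x l) +
        e ^ 2 * P.c4 s * F.y x i * F.y x j * (x l * x l) +
        e ^ 2 * P.c5 s * (x i * F.y x j + x j * F.y x i) * (x l * F.y x l) +
        e * P.c6 s * F.y x j * (x l * F.J l i) + e * P.c6 s * F.y x i * (x l * F.J l j) :=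
      fun l => by simp only [chr, rq_eq, e, s]; ring
    have h2 : ∀ m, ∑ l, x l * kd m l = x m := fun m => by simp [kd]
    have h4 : ∑ l, x l * x l = ‖x‖ ^ 2 := F.xx x
    have h5 : ∑ l, x l * F.y x l = 0 := F.xy x
    have h8 : ∀ m, ∑ l, x l * F.J l m = -F.y x m := F.xJ x
    simp only [key, Finset.sum_add_distrib, ← Finset.mul_sum, h2, h4, h5, h8]
    simp only [e]
    field_simp
    ring
  have A5 : ∑ k, ∑ l, chr F P x k l k * chr F P x l i j =
      e * P.fT n s * ∑ l, x l * chr F P x l i j := by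
    rw [Finset.sum_comm, Finset.mul_sum]
    refine Finset.sum_congr rfl fun l _ => ?_
    rw [← Finset.sum_mul, chr_trace F P hx l, rq_eq, pow_one]
    ring
  rw [ricci, Finset.sum_congr rfl fun k _ => A1 k, A2,
    Finset.sum_congr rfl fun k _ => Finset.sum_congr rfl fun l _ => A3 k l]
  simp only [Finset.sum_sub_distrib]
  rw [A5, A4, chr_div F P hx, chr_prod F P hx]
  simp only [alpha, beta, gamma, e, s]
  ring

end

end Vale.Agent.P225.Geo
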